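import Vale.Agent.P167.QM.Defs
import Vale.Agent.P167.BR.Defs

/-!
# P167, general `q`, block Q-SRSW: statements

Touching of a free flat side. `√q = Q = 2 cos θ`. The strip `St n H` of width `n` and height `H`, the row
of squares below it in the state `a`, the row above it in the state `b`, everything else closed.
-/

namespace Vale.Agent.P167.H452

open Finset Filter Topology Vale.Agent.P167.FK Vale.Agent.P167.QM Vale.Agent.P167.BR
open Vale.Agent.P145.FB (PStep PConn)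

/-- The strip. -/
noncomputable def St (n H : ℤ) : Finset (ℤ × ℤ) := Finset.Ico 0 n ×ˢ Finset.Ico 0 H

/-- The row below the strip in the state `a`, the row above the strip in the state `b`, all other
squares closed. -/
noncomputable def et (n H : ℤ) (a b : Bool) : Cfg := fun v =>
  if 0 ≤ v.1 ∧ v.1 < n then (if v.2 = -1 then a else if v.2 = H then b else false) else false

/-- The partition function of the strip. -/
noncomputable def Zs (Q : ℝ) (n H : ℤ) (a b : Bool) : ℝ := Zq Q (St n H) (et n H a b)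

open Classical in
/-- The number of the strands from the bottom to the top of the strip. -/
noncomputable def nT (n H : ℤ) (ω : Cfg) : ℕ :=
  ((pcs ω (St n H)).filter fun A => (∃ x : ℤ, 0 ≤ x ∧ x < n ∧ Sum.inr (x, -1) ∈ A) ∧
    ∃ x : ℤ, 0 ≤ x ∧ x < n ∧ Sum.inr (x, H - 1) ∈ A).card

/-- The event: an open primal path in the upper half plane from the window `[-M, M]` of the line to
distance `2 M`. -/
def Tch (M : ℤ) : Set Cfg := {ω | ∃ u v : ℤ × ℤ, Even (u.1 + u.2) ∧ u.2 = 0 ∧ |u.1| ≤ M ∧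
  2 * M ≤ nm v ∧ PConn (op ω) {w | 0 ≤ w.2 ∧ nm w ≤ 2 * M} u v}

/-- The probability of touching the free side: half box of radius `4 M`, closed below, open outside. -/
noncomputable def touch (Q : ℝ) (M : ℤ) : ℝ := Pr Q (HB 0 (4 * M)) (ow 0 (4 * M)) (Tch M)

/-- (1) Reflection positivity. -/
def S_RP (θ : ℝ) : Prop := ∀ H : ℤ, 2 ≤ H → Even H → ∃ C : ℝ, 0 < C ∧ ∀ n : ℤ, 1 ≤ n →
  Zs (2 * Real.cos θ) n H false false * Zs (2 * Real.cos θ) n H true true ≤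
    C * (Zs (2 * Real.cos θ) n H false true * Zs (2 * Real.cos θ) n H true false) *
      (Ex (2 * Real.cos θ) (St n H) (et n H false true) (fun ω => (Real.sin θ)⁻¹ ^ nT n H ω) *
        Ex (2 * Real.cos θ) (St n H) (et n H true false) (fun ω => (Real.sin θ)⁻¹ ^ nT n H ω))

/-- (2) Positive association. -/
def S_FKG (Q : ℝ) : Prop := ∃ (c : ℝ) (M₀ : ℤ), 0 < c ∧ 1 ≤ M₀ ∧ ∀ M : ℤ, M₀ ≤ M →
  ∃ C : ℝ, 0 < C ∧ ∀ m : ℕ,
    Real.exp (c * m) * (Zs Q (2 * M * m) (8 * M) false true * Zs Q (2 * M * m) (8 * M) true false) ≤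
      C * (Zs Q (2 * M * m) (8 * M) false false * Zs Q (2 * M * m) (8 * M) true true)

/-- (3) Moments. -/
def S_MOM (Q : ℝ) : Prop := ∀ A : ℝ, 1 ≤ A → ∃ (K : ℝ) (M₁ : ℤ), 0 < K ∧ 1 ≤ M₁ ∧
  ∀ M : ℤ, M₁ ≤ M → ∃ C : ℝ, 0 < C ∧ ∀ m : ℕ,
    Ex Q (St (2 * M * m) (8 * M)) (et (2 * M * m) (8 * M) false true)
      (fun ω => A ^ nT (2 * M * m) (8 * M) ω) ≤ C * (1 + K * Real.sqrt (touch Q M)) ^ m ∧
    Ex Q (St (2 * M * m) (8 * M)) (et (2 * M * m) (8 * M) true false)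
      (fun ω => A ^ nT (2 * M * m) (8 * M) ω) ≤ C * (1 + K * Real.sqrt (touch Q M)) ^ m

/-- **Touching of a free flat side**, one scale. -/
def TOUCH (Q : ℝ) : Prop := ∃ (c : ℝ) (M₀ : ℤ), 0 < c ∧ 1 ≤ M₀ ∧ ∀ M : ℤ, M₀ ≤ M → c ≤ touch Q M

/-- A comparison of growth rates. -/
theorem rate_le {x y C : ℝ} (hy : 0 < y) (h : ∀ m : ℕ, 1 ≤ m → x ^ m ≤ C * y ^ m) : x ≤ y := by
  by_contra hlt
  push Not at hlt
  have h1 : 1 < x / y := (one_lt_div hy).2 hlt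
  obtain ⟨m, hm⟩ := pow_unbounded_of_one_lt C h1
  have hm1 : ∃ k : ℕ, 1 ≤ k ∧ C < (x / y) ^ k := by
    refine ⟨m + 1, by omega, hm.trans_le ?_⟩
    exact pow_le_pow_right₀ h1.le (by omega)
  obtain ⟨k, hk1, hk⟩ := hm1
  have h2 := h k hk1
  rw [div_pow, lt_div_iff₀ (pow_pos hy _)] at hk
  linarith

theorem arith_one {e X Y C₁ C₂ C₃ E1 E2 z : ℝ} (hX : 0 < X) (hC₂ : 0 < C₂) (hC₁ : 0 < C₁)
    (hC₃ : 0 < C₃) (hz : 0 < z) (hE2 : 0 ≤ E2) (e1 : Y ≤ C₁ * X * (E1 * E2)) (e2 : e * X ≤ C₂ * Y)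
    (e3 : E1 ≤ C₃ * z) (e4 : E2 ≤ C₃ * z) : e ≤ C₁ * C₂ * C₃ ^ 2 * z ^ 2 := by
  have e5 : E1 * E2 ≤ (C₃ * z) * (C₃ * z) := mul_le_mul e3 e4 hE2 (by positivity)
  have e6 : e * X ≤ C₂ * (C₁ * X * ((C₃ * z) * (C₃ * z))) :=
    e2.trans (mul_le_mul_of_nonneg_left (e1.trans
      (mul_le_mul_of_nonneg_left e5 (by positivity))) hC₂.le)
  have e8 : C₂ * (C₁ * X * ((C₃ * z) * (C₃ * z))) = (C₁ * C₂ * C₃ ^ 2 * z ^ 2) * X := by ring
  rw [e8] at e6
  exact le_of_mul_le_mul_right e6 hX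

/-- **Assembly.** -/
theorem touch_of {θ : ℝ} (h0 : 0 < θ) (h1 : θ ≤ Real.pi / 3) (hRP : S_RP θ)
    (hF : S_FKG (2 * Real.cos θ)) (hM : S_MOM (2 * Real.cos θ)) : TOUCH (2 * Real.cos θ) := by
  have hpi := Real.pi_pos
  have hs : 0 < Real.sin θ := Real.sin_pos_of_pos_of_lt_pi h0 (by linarith)
  have hs1 : 1 ≤ (Real.sin θ)⁻¹ := (one_le_inv₀ hs).2 (Real.sin_le_one θ)
  have hcos : 1 / 2 ≤ Real.cos θ := by
    rw [← Real.cos_pi_div_three]
    exact Real.cos_le_cos_of_nonneg_of_le_pi h0.le (by linarith) h1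
  have hQ0 : (0 : ℝ) < 2 * Real.cos θ := by linarith
  obtain ⟨c, M₀, hc, hM₀, hF'⟩ := hF
  obtain ⟨K, M₁, hK, -, hM'⟩ := hM _ hs1
  have hec : 1 < Real.exp (c / 2) := Real.one_lt_exp_iff.2 (by linarith)
  refine ⟨((Real.exp (c / 2) - 1) / K) ^ 2, max M₀ M₁, by
    have : 0 < Real.exp (c / 2) - 1 := by linarith
    positivity, hM₀.trans (le_max_left _ _), fun M hM01 => ?_⟩
  have hM : M₀ ≤ M := (le_max_left _ _).trans hM01
  have hMM : M₁ ≤ M := (le_max_right _ _).trans hM01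
  have hM1 : 1 ≤ M := by omega
  obtain ⟨C₁, hC₁, hR⟩ := hRP (8 * M) (by omega) ⟨4 * M, by ring⟩
  obtain ⟨C₂, hC₂, hFK⟩ := hF' M hM
  obtain ⟨C₃, hC₃, hMo⟩ := hM' M hMM
  have hy1 : 1 ≤ 1 + K * Real.sqrt (touch (2 * Real.cos θ) M) := by
    have := mul_nonneg hK.le (Real.sqrt_nonneg (touch (2 * Real.cos θ) M))
    linarith
  have hmain : Real.exp c ≤ (1 + K * Real.sqrt (touch (2 * Real.cos θ) M)) ^ 2 := by
    refine rate_le (C := C₁ * C₂ * C₃ ^ 2) (pow_pos (by linarith) 2) fun m hm => ?_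
    obtain ⟨e3, e4⟩ := hMo m
    have hn : (1 : ℤ) ≤ 2 * M * m := by
      have : (1 : ℤ) ≤ (m : ℤ) := by exact_mod_cast hm
      nlinarith
    have hE2 : 0 ≤ Ex (2 * Real.cos θ) (St (2 * M * m) (8 * M)) (et (2 * M * m) (8 * M) true false)
        (fun ω => (Real.sin θ)⁻¹ ^ nT (2 * M * m) (8 * M) ω) := by
      refine div_nonneg (Finset.sum_nonneg fun S _ => ?_) (FKA.Zq_pos hQ0 _ _).le
      exact mul_nonneg (pow_nonneg hQ0.le _) (pow_nonneg (by linarith) _)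
    have h2 := arith_one (z := (1 + K * Real.sqrt (touch (2 * Real.cos θ) M)) ^ m)
      (mul_pos (FKA.Zq_pos hQ0 _ _) (FKA.Zq_pos hQ0 _ _)) hC₂ hC₁ hC₃ (pow_pos (by linarith) m) hE2
      (hR (2 * M * m) hn) (hFK m) e3 e4
    rw [← Real.exp_nat_mul, mul_comm (m : ℝ) c, ← pow_mul, mul_comm 2 m, pow_mul]
    exact h2
  have h2 : Real.exp (c / 2) ≤ 1 + K * Real.sqrt (touch (2 * Real.cos θ) M) := by
    have h3 : Real.exp (c / 2) ^ 2 = Real.exp c := by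
      rw [← Real.exp_nat_mul]
      congr 1
      push_cast
      ring
    rw [← h3] at hmain
    exact le_of_sq_le_sq hmain (by linarith)
  have h4 : (Real.exp (c / 2) - 1) / K ≤ Real.sqrt (touch (2 * Real.cos θ) M) := by
    rw [div_le_iff₀ hK]
    linarith
  have h5 : 0 < (Real.exp (c / 2) - 1) / K := div_pos (by linarith) hK
  have h6 : 0 ≤ touch (2 * Real.cos θ) M := by
    by_contra hn
    push Not at hn
    rw [Real.sqrt_eq_zero_of_nonpos hn.le] at h4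
    linarith
  calc ((Real.exp (c / 2) - 1) / K) ^ 2 ≤ Real.sqrt (touch (2 * Real.cos θ) M) ^ 2 :=
        pow_le_pow_left₀ h5.le h4 2
    _ = _ := Real.sq_sqrt h6

end Vale.Agent.P167.H452
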