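import Vale.Agent.P167.FKA.WirB

/-!
# P167, general `q`, block Q-SRSW: comparison of boundary conditions by a map of the sites,
chains of open squares, opening one square outside
-/

namespace Vale.Agent.P167.H452

open Finset Vale.Agent.P167.FK Vale.Agent.P167.FKA Relation
open Vale.Agent.P145.FB (PStep PConn)
open Vale.Agent.P167.H259 (PC_mono cf_mono cf_mono2 f_comp f_comp2 f_markov f_fkg flip_cf LN sum_inner
  Ex_out Zq_out cf_congr four lattice_w)

variable {Q : ℝ} {D D' : Finset (ℤ × ℤ)} {η η' ω ω' : Cfg}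

theorem pc_symm {s t : ℤ × ℤ} (h : PC ω s t) : PC ω t s := rtg_symm h

theorem pc_trans {s t r : ℤ × ℤ} (h : PC ω s t) (h' : PC ω t r) : PC ω s r := h.trans h'

theorem pc_refl (s : ℤ × ℤ) : PC ω s s := ReflTransGen.refl

/-- The primal corners of a square. -/
theorem cor_pab {v z : ℤ × ℤ} (h : Cor v z) (hz : Even (z.1 + z.2)) : z = pa v ∨ z = pb v := by
  obtain ⟨a, b⟩ := v
  obtain ⟨x, y⟩ := z
  unfold pa pb
  unfold Cor at h
  simp only at h hz ⊢
  by_cases hv : Even (a + b)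
  · rw [if_pos hv, if_pos hv]
    rw [Int.even_iff] at hv hz
    simp only [Prod.mk.injEq]
    omega
  · rw [if_neg hv, if_neg hv]
    rw [Int.even_iff] at hv hz
    simp only [Prod.mk.injEq]
    omega

/-- The two primal corners of an open square are connected. -/
theorem pc_open {v : ℤ × ℤ} (h : ω v = true) : PC ω (pa v) (pb v) := by
  have h1 := cor_pa v
  have h2 := cor_pb v
  refine ReflTransGen.single (step_of_cor (F := op ω) (v := v) h h1.1 h2.1 h1.2 h2.2 ?_)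
  unfold pa pb
  split_ifs <;> simp [Prod.ext_iff]

theorem pc_cor {v z z' : ℤ × ℤ} (h : ω v = true) (hz : Cor v z) (he : Even (z.1 + z.2))
    (hz' : Cor v z') (he' : Even (z'.1 + z'.2)) : PC ω z z' := by
  have hp := pc_open h
  rcases cor_pab hz he with rfl | rfl <;> rcases cor_pab hz' he' with rfl | rfl
  · exact pc_refl _
  · exact hp
  · exact pc_symm hp
  · exact pc_refl _

/-- A primal step. -/
theorem step_pab {F : Set (ℤ × ℤ)} {s t : ℤ × ℤ} (h : PStep F s t) (hs : Even (s.1 + s.2)) :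
    ∃ v ∈ F, (s = pa v ∧ t = pb v) ∨ (s = pb v ∧ t = pa v) := by
  have ht : Even (t.1 + t.2) := (FKA.even_step h).1 hs
  obtain ⟨c1, c2⟩ := cor_of_step h
  refine ⟨_, h.2.2, ?_⟩
  have hne : s ≠ t := by
    intro e
    have := h.1
    rw [e] at this
    omega
  rcases cor_pab c1 hs with h1 | h1 <;> rcases cor_pab c2 ht with h2 | h2
  · exact absurd (h1.trans h2.symm) hne
  · exact Or.inl ⟨h1, h2⟩
  · exact Or.inr ⟨h1, h2⟩
  · exact absurd (h1.trans h2.symm) hne

/-- Connections are mapped to connections. -/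
theorem sim {φ : ℤ × ℤ → ℤ × ℤ} (hφ : ∀ a ∈ D, φ (pa a) = pa a ∧ φ (pb a) = pb a)
    (hout : ∀ v, v ∉ D → η v = true → PC (cf D η' ∅) (φ (pa v)) (φ (pb v)))
    (S : Finset (ℤ × ℤ)) {s t : ℤ × ℤ} (hs : Even (s.1 + s.2)) (h : PC (cf D η S) s t) :
    PC (cf D η' S) (φ s) (φ t) := by
  have key : ∀ v, cf D η S v = true → PC (cf D η' S) (φ (pa v)) (φ (pb v)) := by
    intro v hv
    by_cases hvD : v ∈ D
    · obtain ⟨h1, h2⟩ := hφ v hvD
      rw [h1, h2]
      refine pc_open ?_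
      unfold cf at hv ⊢
      rwa [if_pos hvD] at hv ⊢
    · rw [cf_out hvD] at hv
      exact PC_mono (cf_mono (Finset.empty_subset S)) (hout v hvD hv)
  unfold PC at h
  induction h with
  | refl => exact pc_refl _
  | @tail x y h1 h2 ih =>
    have hx : Even (x.1 + x.2) := even_of_rtg hs h1
    obtain ⟨v, hv, h3 | h3⟩ := step_pab h2 hx
    · rw [h3.1] at ih
      rw [h3.2]
      exact pc_trans ih (key v hv)
    · rw [h3.1] at ih
      rw [h3.2]
      exact pc_trans ih (pc_symm (key v hv))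

/-- **Comparison of boundary conditions by a map of the sites.** -/
theorem comp_sim (hQ : 1 ≤ Q) (hη : Good η) (hη' : Good η') {φ : ℤ × ℤ → ℤ × ℤ}
    (hφ : ∀ a ∈ D, φ (pa a) = pa a ∧ φ (pb a) = pb a)
    (hout : ∀ v, v ∉ D → η v = true → PC (cf D η' ∅) (φ (pa v)) (φ (pb v)))
    {F : Cfg → ℝ} (hF : IncF F) (hL : Loc D F) : Ex Q D η F ≤ Ex Q D η' F := by
  refine f_comp2 Q D η η' F hQ hη hη' (fun S _ a ha _ h => ?_) hF hL
  have h1 := sim hφ hout S (cor_pa a).2 h
  rwa [(hφ a ha).1, (hφ a ha).2] at h1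

/-! ### chains of open squares -/

theorem pb_row (x y : ℤ) : pb (x, y) = pa (x + 1, y) := by
  unfold pa pb
  by_cases h : Even (x + y)
  · have h' : ¬ Even (x + 1 + y) := by rw [Int.even_iff] at h ⊢; omega
    rw [if_pos h, if_neg h']
  · have h' : Even (x + 1 + y) := by rw [Int.even_iff] at h ⊢; omega
    rw [if_neg h, if_pos h']

/-- A row of open squares. -/
theorem row_cn {y a b : ℤ} (h : ∀ x, a ≤ x → x < b → ω (x, y) = true) {x x' : ℤ} (hx : a ≤ x)
    (hxx : x ≤ x') (hx' : x' < b) : PC ω (pa (x, y)) (pa (x', y)) := by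
  revert hx'
  induction x', hxx using Int.leInduction with
  | base => exact fun _ => pc_refl _
  | succ k hk ih =>
    intro hlt
    have h1 := ih (by omega)
    have h2 : ω (k, y) = true := h k (by omega) (by omega)
    refine pc_trans h1 ?_
    rw [← pb_row]
    exact pc_open h2

/-- The corners of a row of open squares are connected. -/
theorem row_cor {y a b : ℤ} (h : ∀ x, a ≤ x → x < b → ω (x, y) = true) {z z' : ℤ × ℤ}
    (hz : Even (z.1 + z.2)) (hz' : Even (z'.1 + z'.2))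
    (h1 : ∃ x, a ≤ x ∧ x < b ∧ Cor (x, y) z) (h2 : ∃ x, a ≤ x ∧ x < b ∧ Cor (x, y) z') :
    PC ω z z' := by
  obtain ⟨x, hx1, hx2, hx3⟩ := h1
  obtain ⟨x', hx1', hx2', hx3'⟩ := h2
  have e1 : PC ω z (pa (x, y)) := pc_cor (h x hx1 hx2) hx3 hz (cor_pa _).1 (cor_pa _).2
  have e2 : PC ω (pa (x', y)) z' := pc_cor (h x' hx1' hx2') (cor_pa _).1 (cor_pa _).2 hx3' hz'
  refine pc_trans (pc_trans e1 ?_) e2
  rcases le_total x x' with hle | hle
  · exact row_cn h hx1 hle hx2'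
  · exact pc_symm (row_cn h hx1' hle hx2)

/-- The corners of a column of open squares are connected. -/
theorem col_cn {x a b : ℤ} (h : ∀ y, a ≤ y → y < b → ω (x, y) = true) {y y' : ℤ} (hy : a ≤ y)
    (hyy : y ≤ y') (hy' : y' < b) : PC ω (pa (x, y)) (pa (x, y')) := by
  revert hy'
  induction y', hyy using Int.leInduction with
  | base => exact fun _ => pc_refl _
  | succ k hk ih =>
    intro hlt
    have h1 := ih (by omega)
    have h2 : ω (x, k) = true := h k (by omega) (by omega)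
    have h3 : ω (x, k + 1) = true := h (k + 1) (by omega) (by omega)
    refine pc_trans h1 ?_
    by_cases he : Even (x + k)
    · -- the common corner is `(x + 1, k + 1)`
      refine pc_trans (t := (x + 1, k + 1))
        (pc_cor h2 (cor_pa _).1 (cor_pa _).2 ⟨Or.inr rfl, Or.inr rfl⟩ ?_)
        (pc_cor h3 ⟨Or.inr rfl, Or.inl rfl⟩ ?_ (cor_pa _).1 (cor_pa _).2)
      all_goals
        rw [Int.even_iff] at he ⊢
        simp only
        omega
    · refine pc_trans (t := (x, k + 1))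
        (pc_cor h2 (cor_pa _).1 (cor_pa _).2 ⟨Or.inl rfl, Or.inr rfl⟩ ?_)
        (pc_cor h3 ⟨Or.inl rfl, Or.inl rfl⟩ ?_ (cor_pa _).1 (cor_pa _).2)
      all_goals
        rw [Int.even_iff] at he ⊢
        simp only
        omega

theorem col_cor {x a b : ℤ} (h : ∀ y, a ≤ y → y < b → ω (x, y) = true) {z z' : ℤ × ℤ}
    (hz : Even (z.1 + z.2)) (hz' : Even (z'.1 + z'.2))
    (h1 : ∃ y, a ≤ y ∧ y < b ∧ Cor (x, y) z) (h2 : ∃ y, a ≤ y ∧ y < b ∧ Cor (x, y) z') :
    PC ω z z' := by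
  obtain ⟨y, hy1, hy2, hy3⟩ := h1
  obtain ⟨y', hy1', hy2', hy3'⟩ := h2
  have e1 : PC ω z (pa (x, y)) := pc_cor (h y hy1 hy2) hy3 hz (cor_pa _).1 (cor_pa _).2
  have e2 : PC ω (pa (x, y')) z' := pc_cor (h y' hy1' hy2') (cor_pa _).1 (cor_pa _).2 hy3' hz'
  refine pc_trans (pc_trans e1 ?_) e2
  rcases le_total y y' with hle | hle
  · exact col_cn h hy1 hle hy2'
  · exact pc_symm (col_cn h hy1' hle hy2)

/-! ### opening a square outside -/

/-- The weight of the configuration `X` outside of `D` in the larger domain `D'`. -/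
noncomputable def WW (Q : ℝ) (D D' : Finset (ℤ × ℤ)) (η : Cfg) (X : Finset (ℤ × ℤ)) : ℝ :=
  ∑ S ∈ D.powerset, Q ^ LD D' (cf D' η (X ∪ S))

theorem WW_pos (hQ : 0 < Q) (D D' : Finset (ℤ × ℤ)) (η : Cfg) (X : Finset (ℤ × ℤ)) :
    0 < WW Q D D' η X :=
  Finset.sum_pos (fun _ _ => pow_pos hQ _) ⟨∅, Finset.empty_mem_powerset D⟩

theorem WW_eq (hQ : 0 < Q) (hD : D ⊆ D') {X : Finset (ℤ × ℤ)} (hX : X ⊆ D' \ D) :
    WW Q D D' η X = Q ^ LN D D' (cf D' η X) * Zq Q D (cf D' η X) := by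
  have h := sum_inner (η := η) hQ hD (fun _ => 1) hX
  rw [Ex_const hQ, mul_one] at h
  rw [← h]
  unfold WW
  exact Finset.sum_congr rfl fun S _ => by rw [mul_one]

/-- The weight is log-supermodular. -/
theorem WW_lattice (hQ : 1 ≤ Q) (hη : Good η) (hD : D ⊆ D') {X Y : Finset (ℤ × ℤ)}
    (hX : X ⊆ D' \ D) (hY : Y ⊆ D' \ D) :
    WW Q D D' η X * WW Q D D' η Y ≤ WW Q D D' η (X ∩ Y) * WW Q D D' η (X ∪ Y) := by
  classical
  have hQ0 : 0 < Q := by linarith
  refine four (D := D) (fun S => Q ^ LD D' (cf D' η (X ∪ S))) (fun S => Q ^ LD D' (cf D' η (Y ∪ S)))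
    (fun S => Q ^ LD D' (cf D' η (X ∩ Y ∪ S))) (fun S => Q ^ LD D' (cf D' η (X ∪ Y ∪ S)))
    (fun S => (pow_pos hQ0 _).le) (fun S => (pow_pos hQ0 _).le) (fun S => (pow_pos hQ0 _).le)
    (fun S => (pow_pos hQ0 _).le) fun s hs t ht => ?_
  have hXD : ∀ v ∈ X, v ∉ D := fun v hv => (Finset.mem_sdiff.1 (hX hv)).2
  have hYD : ∀ v ∈ Y, v ∉ D := fun v hv => (Finset.mem_sdiff.1 (hY hv)).2
  have h1 := lattice_w (Q := Q) (D := D') (η := η) (η' := η) f_flip f_good hQ hη hη
    (fun _ _ _ _ _ hp => hp) (A := X ∪ s) (B := Y ∪ t)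
    (Finset.union_subset (hX.trans Finset.sdiff_subset) (hs.trans hD))
    (Finset.union_subset (hY.trans Finset.sdiff_subset) (ht.trans hD))
  have e1 : (X ∪ s) ∩ (Y ∪ t) = X ∩ Y ∪ s ∩ t := by
    ext v
    simp only [Finset.mem_inter, Finset.mem_union]
    constructor
    · rintro ⟨h1 | h1, h2 | h2⟩
      · exact Or.inl ⟨h1, h2⟩
      · exact absurd (ht h2) (hXD v h1)
      · exact absurd (hs h1) (hYD v h2)
      · exact Or.inr ⟨h1, h2⟩
    · rintro (⟨h1, h2⟩ | ⟨h1, h2⟩)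
      · exact ⟨Or.inl h1, Or.inl h2⟩
      · exact ⟨Or.inr h1, Or.inr h2⟩
  have e2 : (X ∪ s) ∪ (Y ∪ t) = X ∪ Y ∪ (s ∪ t) := by
    ext v
    simp only [Finset.mem_union]
    tauto
  rw [e1, e2] at h1
  exact h1

/-- **Opening the square `u` outside of `D`.** -/
theorem WW_flip (hQ : 0 < Q) (hη : Good η) (hD : D ⊆ D') {X : Finset (ℤ × ℤ)} (hX : X ⊆ D' \ D)
    {u : ℤ × ℤ} (hu : u ∈ D') (huD : u ∉ D) (huX : u ∉ X) :
    WW Q D D' η (insert u X) = Q⁻¹ * WW Q D D' η X *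
      (1 + (Q ^ 2 - 1) * Pr Q D (cf D' η X) {ω | PC ω (pa u) (pb u)}) := by
  classical
  set F : Cfg → ℝ := fun ω => Q⁻¹ * (1 + (Q ^ 2 - 1) *
    {ω | PC ω (pa u) (pb u)}.indicator 1 ω) with hF
  have h1 : ∀ S ∈ D.powerset, Q ^ LD D' (cf D' η (insert u X ∪ S)) =
      Q ^ LD D' (cf D' η (X ∪ S)) * F (cf D' η (X ∪ S)) := by
    intro S hS
    have huS : u ∉ X ∪ S := by
      rw [Finset.mem_union]
      rintro (h | h)
      · exact huX h
      · exact huD (Finset.mem_powerset.1 hS h)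
    have h2 := flip_cf (η := η) f_flip f_good hη hu huS
    rw [Finset.insert_union]
    by_cases hp : PC (cf D' η (X ∪ S)) (pa u) (pb u)
    · have e : {ω | PC ω (pa u) (pb u)}.indicator (1 : Cfg → ℝ) (cf D' η (X ∪ S)) = 1 := by
        rw [Set.indicator_of_mem (show cf D' η (X ∪ S) ∈ {ω | PC ω (pa u) (pb u)} from hp)]
        rfl
      rw [h2.1 hp, hF]
      simp only
      rw [e, pow_succ]
      field_simp
      ring
    · have e : {ω | PC ω (pa u) (pb u)}.indicator (1 : Cfg → ℝ) (cf D' η (X ∪ S)) = 0 :=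
        Set.indicator_of_notMem (show cf D' η (X ∪ S) ∉ {ω | PC ω (pa u) (pb u)} from hp) _
      rw [← h2.2 hp, hF]
      simp only
      rw [e, pow_succ]
      field_simp
      ring
  unfold WW at *
  rw [Finset.sum_congr rfl h1, sum_inner hQ hD F hX]
  have h3 := WW_eq (η := η) hQ hD hX
  unfold WW at h3
  rw [h3]
  have h4 : Ex Q D (cf D' η X) F = Q⁻¹ *
      (1 + (Q ^ 2 - 1) * Pr Q D (cf D' η X) {ω | PC ω (pa u) (pb u)}) := by
    rw [hF, Ex_mul_left, Ex_add, Ex_const hQ, Ex_mul_left]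
    rfl
  rw [h4]
  ring

/-- The effect of opening one square outside. -/
theorem ex_flip_le (hQ : 1 ≤ Q) (hη : Good η) {u : ℤ × ℤ} (hu : u ∉ D) {F : Cfg → ℝ}
    (hF : ∀ ω, 0 ≤ F ω) (hL : Loc D F) :
    Ex Q D (Function.update η u true) F ≤ Q ^ 2 * Ex Q D (Function.update η u false) F := by
  classical
  have hQ0 : 0 < Q := by linarith
  set D' : Finset (ℤ × ℤ) := insert u D with hD'
  have hD : D ⊆ D' := Finset.subset_insert _ _
  have hX0 : (∅ : Finset (ℤ × ℤ)) ⊆ D' \ D := Finset.empty_subset _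
  have hX1 : ({u} : Finset (ℤ × ℤ)) ⊆ D' \ D := by
    intro v hv
    rw [Finset.mem_singleton] at hv
    subst hv
    exact Finset.mem_sdiff.2 ⟨Finset.mem_insert_self _ _, hu⟩
  have e0 := sum_inner (η := η) hQ0 hD F hX0
  have e1 := sum_inner (η := η) hQ0 hD F hX1
  have z0 := sum_inner (η := η) hQ0 hD (fun _ => 1) hX0
  have z1 := sum_inner (η := η) hQ0 hD (fun _ => 1) hX1
  rw [Ex_const hQ0, mul_one] at z0 z1
  have o0 : Ex Q D (cf D' η ∅) F = Ex Q D (Function.update η u false) F := by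
    refine Ex_out (fun v hv => ?_) F
    by_cases h : v = u
    · subst h
      simp [cf, hD']
    · rw [Function.update_of_ne h, cf_out]
      rw [hD', Finset.mem_insert]
      exact fun h' => h'.elim h hv
  have o1 : Ex Q D (cf D' η {u}) F = Ex Q D (Function.update η u true) F := by
    refine Ex_out (fun v hv => ?_) F
    by_cases h : v = u
    · subst h
      simp [cf, hD']
    · rw [Function.update_of_ne h, cf_out]
      rw [hD', Finset.mem_insert]
      exact fun h' => h'.elim h hv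
  rw [o0] at e0
  rw [o1] at e1
  -- the weights
  have hw : ∀ S ∈ D.powerset, Q ^ LD D' (cf D' η ({u} ∪ S)) ≤ Q * Q ^ LD D' (cf D' η (∅ ∪ S)) ∧
      Q ^ LD D' (cf D' η (∅ ∪ S)) ≤ Q * Q ^ LD D' (cf D' η ({u} ∪ S)) := by
    intro S hS
    have huS : u ∉ ∅ ∪ S := by
      rw [Finset.empty_union]
      exact fun h => hu (Finset.mem_powerset.1 hS h)
    have h2 := flip_cf (η := η) f_flip f_good hη (show u ∈ D' from Finset.mem_insert_self _ _) huS
    have e : ({u} ∪ S : Finset (ℤ × ℤ)) = insert u (∅ ∪ S) := by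
      rw [Finset.empty_union]
      rfl
    rw [e, ← pow_succ', ← pow_succ']
    by_cases hp : PC (cf D' η (∅ ∪ S)) (pa u) (pb u)
    · have := h2.1 hp
      exact ⟨pow_le_pow_right₀ hQ (by omega), pow_le_pow_right₀ hQ (by omega)⟩
    · have := h2.2 hp
      exact ⟨pow_le_pow_right₀ hQ (by omega), pow_le_pow_right₀ hQ (by omega)⟩
  have hFe : ∀ S, F (cf D' η ({u} ∪ S)) = F (cf D' η (∅ ∪ S)) := fun S =>
    hL _ _ fun v hv => by
      have : v ≠ u := fun h => hu (h ▸ hv)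
      simp [cf, hD hv, this]
  have n1 : ∑ S ∈ D.powerset, Q ^ LD D' (cf D' η ({u} ∪ S)) * F (cf D' η ({u} ∪ S)) ≤
      Q * ∑ S ∈ D.powerset, Q ^ LD D' (cf D' η (∅ ∪ S)) * F (cf D' η (∅ ∪ S)) := by
    rw [Finset.mul_sum]
    refine Finset.sum_le_sum fun S hS => ?_
    rw [hFe, ← mul_assoc]
    exact mul_le_mul_of_nonneg_right (hw S hS).1 (hF _)
  have n2 : ∑ S ∈ D.powerset, Q ^ LD D' (cf D' η (∅ ∪ S)) * 1 ≤
      Q * ∑ S ∈ D.powerset, Q ^ LD D' (cf D' η ({u} ∪ S)) * 1 := by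
    rw [Finset.mul_sum]
    refine Finset.sum_le_sum fun S hS => ?_
    rw [mul_one, mul_one]
    exact (hw S hS).2
  rw [e0, e1] at n1
  rw [z0, z1] at n2
  have hE0 : 0 ≤ Ex Q D (Function.update η u false) F := Ex_nonneg hQ0 fun S _ => hF _
  have hE1 : 0 ≤ Ex Q D (Function.update η u true) F := Ex_nonneg hQ0 fun S _ => hF _
  have p0 : 0 < Q ^ LN D D' (cf D' η ∅) * Zq Q D (cf D' η ∅) :=
    mul_pos (pow_pos hQ0 _) (Zq_pos hQ0 _ _)
  have p1 : 0 < Q ^ LN D D' (cf D' η {u}) * Zq Q D (cf D' η {u}) :=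
    mul_pos (pow_pos hQ0 _) (Zq_pos hQ0 _ _)
  generalize Q ^ LN D D' (cf D' η ∅) * Zq Q D (cf D' η ∅) = a0 at *
  generalize Q ^ LN D D' (cf D' η {u}) * Zq Q D (cf D' η {u}) = a1 at *
  have h5 : a1 * Ex Q D (Function.update η u true) F ≤
      a1 * (Q ^ 2 * Ex Q D (Function.update η u false) F) := by
    calc a1 * Ex Q D (Function.update η u true) F ≤ Q * (a0 * Ex Q D (Function.update η u false) F) := n1
      _ ≤ Q * ((Q * a1) * Ex Q D (Function.update η u false) F) := by gcongr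
      _ = _ := by ring
  exact le_of_mul_le_mul_left h5 p1

end Vale.Agent.P167.H452
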