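import Vale.Agent.P167.H452.Env2

/-!
# P167, general `q`, block Q-SRSW: facing blocks, the telescoping
-/

namespace Vale.Agent.P167.H452

open Finset Filter Topology Vale.Agent.P167.FK Vale.Agent.P167.FKA

variable {Q : ℝ} {n w H : ℤ} {G K : ℕ}

/-- The abscissas of the blocks `a, …, b - 1` (period `(G + 1) w`, the block is the last part of the
period). -/
def InB (w : ℤ) (G a b : ℕ) (x : ℤ) : Prop := ∃ j : ℕ, a ≤ j ∧ j < b ∧
  (j : ℤ) * ((G + 1) * w) + G * w ≤ x ∧ x < ((j : ℤ) + 1) * ((G + 1) * w)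

open Classical in
/-- The first `i` blocks of the bottom row. -/
noncomputable def Xa (n w : ℤ) (G i : ℕ) : Finset (ℤ × ℤ) := (Bt n).filter fun v => InB w G 0 i v.1

open Classical in
/-- The blocks `i, …, K - 1` of the top row. -/
noncomputable def Yb (n H w : ℤ) (G K i : ℕ) : Finset (ℤ × ℤ) :=
  (Tp n H).filter fun v => InB w G i K v.1

theorem Xa_sub (i : ℕ) : Xa n w G i ⊆ Bt n := by
  classical
  exact Finset.filter_subset _ _

theorem Yb_sub (i : ℕ) : Yb n H w G K i ⊆ Tp n H := by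
  classical
  exact Finset.filter_subset _ _

theorem Xa_mono {i i' : ℕ} (h : i ≤ i') : Xa n w G i ⊆ Xa n w G i' := by
  classical
  intro v hv
  unfold Xa at hv ⊢
  rw [Finset.mem_filter] at hv ⊢
  obtain ⟨h1, j, h0, h2, h3⟩ := hv
  exact ⟨h1, j, h0, by omega, h3⟩

theorem Yb_anti {i i' : ℕ} (h : i ≤ i') : Yb n H w G K i' ⊆ Yb n H w G K i := by
  classical
  intro v hv
  unfold Yb at hv ⊢
  rw [Finset.mem_filter] at hv ⊢
  obtain ⟨h1, j, h2, h3⟩ := hv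
  exact ⟨h1, j, by omega, h3⟩

theorem Xa_zero : Xa n w G 0 = ∅ := by
  classical
  rw [Finset.eq_empty_iff_forall_notMem]
  intro v hv
  unfold Xa at hv
  rw [Finset.mem_filter] at hv
  obtain ⟨_, j, h1, h2, _⟩ := hv
  omega

theorem Yb_K : Yb n H w G K K = ∅ := by
  classical
  rw [Finset.eq_empty_iff_forall_notMem]
  intro v hv
  unfold Yb at hv
  rw [Finset.mem_filter] at hv
  obtain ⟨_, j, h2, h3, _⟩ := hv
  omega

theorem Xa_lt (hw : 0 ≤ w) {i : ℕ} {v : ℤ × ℤ} (hv : v ∈ Xa n w G i) :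
    v.1 < (i : ℤ) * ((G + 1) * w) := by
  classical
  unfold Xa at hv
  rw [Finset.mem_filter] at hv
  obtain ⟨_, j, _, h2, _, h3⟩ := hv
  have h4 : (j : ℤ) + 1 ≤ i := by exact_mod_cast h2
  have h5 : (0 : ℤ) ≤ (G + 1) * w := by positivity
  nlinarith [mul_le_mul_of_nonneg_right h4 h5]

theorem Yb_ge (hw : 0 ≤ w) {i : ℕ} {v : ℤ × ℤ} (hv : v ∈ Yb n H w G K i) :
    (i : ℤ) * ((G + 1) * w) + G * w ≤ v.1 := by
  classical
  unfold Yb at hv
  rw [Finset.mem_filter] at hv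
  obtain ⟨_, j, h2, _, h3, _⟩ := hv
  have h4 : (i : ℤ) ≤ j := by exact_mod_cast h2
  have h5 : (0 : ℤ) ≤ (G + 1) * w := by positivity
  nlinarith [mul_le_mul_of_nonneg_right h4 h5]

theorem mem_Xa_succ (hw : 0 ≤ w) {i : ℕ} {x : ℤ} (h1 : (i : ℤ) * ((G + 1) * w) + G * w ≤ x)
    (h2 : x < (i : ℤ) * ((G + 1) * w) + G * w + w) (hn : (i : ℤ) * ((G + 1) * w) + G * w + w ≤ n) :
    (x, -1) ∈ Xa n w G (i + 1) := by
  classical
  unfold Xa
  rw [Finset.mem_filter, mem_Bt]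
  have h5 : (0 : ℤ) ≤ (i : ℤ) * ((G + 1) * w) + G * w := by positivity
  refine ⟨⟨by simp only; omega, by simp only; omega, rfl⟩, i, by omega, by omega, h1, ?_⟩
  simp only
  have : ((i : ℤ) + 1) * ((G + 1) * w) = (i : ℤ) * ((G + 1) * w) + G * w + w := by ring
  omega

theorem mem_Yb_self (hw : 0 ≤ w) {i : ℕ} (hi : i < K) {x : ℤ}
    (h1 : (i : ℤ) * ((G + 1) * w) + G * w ≤ x)
    (h2 : x < (i : ℤ) * ((G + 1) * w) + G * w + w) (hn : (i : ℤ) * ((G + 1) * w) + G * w + w ≤ n) :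
    (x, H) ∈ Yb n H w G K i := by
  classical
  unfold Yb
  rw [Finset.mem_filter, mem_Tp]
  have h5 : (0 : ℤ) ≤ (i : ℤ) * ((G + 1) * w) + G * w := by positivity
  refine ⟨⟨by simp only; omega, by simp only; omega, rfl⟩, i, le_rfl, hi, h1, ?_⟩
  simp only
  have : ((i : ℤ) + 1) * ((G + 1) * w) = (i : ℤ) * ((G + 1) * w) + G * w + w := by ring
  omega

/-- The probability in a staircase. -/
theorem Pc_stair (hQ : 1 ≤ Q) (hH : 1 ≤ H) (hw : H + 1 ≤ w) (i : ℕ)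
    (hn : (i : ℤ) * ((G + 1) * w) + G * w ≤ n) :
    Pc Q n H (Xa n w G i ∪ Yb n H w G K i) ≤ (1 - 1 / (1 + Q ^ 2)) ^ G := by
  have hw0 : 0 ≤ w := by omega
  have hb := Finset.disjoint_left.1 (Bt_Tp (n := n) (H := H) hH)
  refine Pc_le (g := (i : ℤ) * ((G + 1) * w)) hQ hH hw (by positivity) G hn
    (rows_union (Xa_sub i) (Yb_sub i)) (fun v hv h1 => ?_) (fun v hv h1 => ?_)
  · rcases Finset.mem_union.1 hv with h | h
    · exact Xa_lt hw0 h
    · have := mem_Tp.1 (Yb_sub i h)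
      omega
  · rcases Finset.mem_union.1 hv with h | h
    · have := mem_Bt.1 (Xa_sub i h)
      omega
    · exact Yb_ge hw0 h

/-- **The growth of the second difference of the two rows**, handle open. -/
theorem rows_grow (hQ : 1 ≤ Q) (hH : 1 ≤ H) (hw : H + 1 ≤ w) {c : ℝ} (hc : 0 ≤ c)
    (hδ : (1 + c) * (1 + (Q ^ 2 - 1) * (1 - 1 / (1 + Q ^ 2)) ^ G) ^ 2 ≤
      1 + (Q ^ 2 - 1) * (1 / (1 + Q ^ 2)))
    (hn : (K : ℤ) * ((G + 1) * w) + G * w ≤ n) :
    (1 + c) ^ K * (W0 Q n H (insert hu (Bt n)) * W0 Q n H (insert hu (Tp n H))) ≤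
      W0 Q n H (insert hu (Bt n ∪ Tp n H)) * W0 Q n H (insert hu ∅) := by
  have hQ0 : 0 < Q := by linarith
  have hw0 : 0 ≤ w := by omega
  set f : ℕ → ℕ → ℝ := fun i j => W0 Q n H (insert hu (Xa n w G i ∪ Yb n H w G K j)) with hf
  have hpos : ∀ i j, 0 < f i j := fun i j => W0_pos hQ0
  have hnn : ∀ i : ℕ, i ≤ K → (i : ℤ) * ((G + 1) * w) + G * w ≤ n := by
    intro i hi
    have h1 : (i : ℤ) ≤ K := by exact_mod_cast hi
    have h2 : (0 : ℤ) ≤ (G + 1) * w := by positivity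
    nlinarith [mul_le_mul_of_nonneg_right h1 h2]
  have hstep : ∀ i < K, (1 + c) * (f (i + 1) K * f i 0) ≤ f (i + 1) 0 * f i K := by
    intro i hi
    refine tel_step hpos hc ?_ ?_ ?_
    · have h := W0_two' (Q := Q) (n := n) (H := H) hQ hH (Xa_mono (n := n) (w := w) (G := G)
        (Nat.le_succ i)) (Xa_sub (i + 1)) (Yb_anti (n := n) (H := H) (w := w) (G := G) (K := K)
        (Nat.zero_le i)) (Yb_sub 0)
      rw [hf]
      simp only
      linarith
    · have hn1 := hnn (i + 1) (by omega)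
      have e1 : (((i + 1 : ℕ)) : ℤ) * ((G + 1) * w) = (i : ℤ) * ((G + 1) * w) + G * w + w := by
        push_cast
        ring
      have hGw : 0 ≤ (G : ℤ) * w := by positivity
      have h := W0_diag (Q := Q) (n := n) (H := H) (c := c)
        (δ := (1 - 1 / (1 + Q ^ 2)) ^ G) hQ hH (Xa_mono (n := n) (w := w) (G := G)
        (Nat.le_succ i)) (Xa_sub (i + 1)) (Yb_anti (n := n) (H := H) (w := w) (G := G) (K := K)
        (Nat.le_succ i)) (Yb_sub i) hc (Pc_stair hQ hH hw (i + 1) hn1)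
        (Pc_stair hQ hH hw i (hnn i (by omega))) ?_ hδ
      · rw [hf]
        simp only
        linarith
      · refine Pc_ge (s := (i : ℤ) * ((G + 1) * w) + G * w) hQ hH hw (by positivity) (by omega)
          (rows_union (Xa_sub _) (Yb_sub _)) (fun x h1 h2 => ?_) (fun x h1 h2 => ?_)
        · exact Finset.mem_union_left _ (mem_Xa_succ hw0 h1 h2 (by omega))
        · exact Finset.mem_union_right _ (mem_Yb_self hw0 hi h1 h2 (by omega))
    · have h := W0_two' (Q := Q) (n := n) (H := H) hQ hH (Xa_mono (n := n) (w := w) (G := G)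
        (Nat.le_succ i)) (Xa_sub (i + 1)) (Yb_anti (n := n) (H := H) (w := w) (G := G) (K := K)
        (show i + 1 ≤ K by omega)) (Yb_sub (i + 1))
      rw [hf]
      simp only
      linarith
  have htel := tel_all hpos hc hstep K le_rfl
  rw [hf] at htel
  simp only [Xa_zero, Yb_K, Finset.union_empty, Finset.empty_union] at htel
  have hsub : ({hu} : Finset (ℤ × ℤ)) ∪ (Bt n ∪ Tp n H) ⊆ Dm n H \ St n H := by
    have := ins_sub (n := n) (H := H) (X := Bt n ∪ Tp n H) le_rfl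
    rwa [Finset.insert_eq] at this
  have h := full_of_blocks (W := W0 Q n H) (B := Bt n) (T := Tp n H) (X := Xa n w G K)
    (Y := Yb n H w G K 0) (u := {hu}) (C := (1 + c) ^ K) (fun _ => W0_pos hQ0) (by positivity)
    (fun Z Z' h1 h2 => W0_lattice hQ (h1.trans hsub) (h2.trans hsub)) (Xa_sub K) (Yb_sub 0)
    (Bt_Tp hH) ?_
  · simp only [← Finset.insert_eq] at h
    rw [show ({hu} : Finset (ℤ × ℤ)) = insert hu ∅ from rfl] at h
    exact h
  · simp only [← Finset.insert_eq]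
    rw [show ({hu} : Finset (ℤ × ℤ)) = insert hu ∅ from rfl]
    linarith

theorem hup_arith (hQ : 1 ≤ Q) {a b p : ℝ} (ha : 0 < a) (p0 : 0 ≤ p) (p1 : p ≤ 1)
    (e : b = Q⁻¹ * a * (1 + (Q ^ 2 - 1) * p)) : b ≤ Q * a ∧ a ≤ Q * b := by
  have hQ0 : 0 < Q := by linarith
  have hq : 0 ≤ Q ^ 2 - 1 := by nlinarith
  rw [e]
  constructor
  · have h1 : 1 + (Q ^ 2 - 1) * p ≤ Q ^ 2 := by nlinarith
    calc Q⁻¹ * a * (1 + (Q ^ 2 - 1) * p) ≤ Q⁻¹ * a * Q ^ 2 :=
          mul_le_mul_of_nonneg_left h1 (by positivity)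
      _ = Q * a := by
          field_simp
  · have h1 : 1 ≤ 1 + (Q ^ 2 - 1) * p := by nlinarith [mul_nonneg hq p0]
    calc a = Q * (Q⁻¹ * a * 1) := by
          field_simp
      _ ≤ _ := by
          refine mul_le_mul_of_nonneg_left (mul_le_mul_of_nonneg_left h1 (by positivity)) hQ0.le

theorem fin_arith (hQ : 1 ≤ Q) {B T F E B' T' F' E' C : ℝ} (hC : 0 ≤ C)
    (p2 : 0 < T) (p3 : 0 < F) (q1 : 0 < B') (q4 : 0 < E') (b1 : B ≤ Q * B')
    (b2 : T ≤ Q * T') (b3 : F' ≤ Q * F) (b4 : E' ≤ Q * E) (h : C * (B' * T') ≤ F' * E') :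
    C * (B * T) ≤ Q ^ 4 * (F * E) := by
  have hQ0 : 0 < Q := by linarith
  calc C * (B * T) ≤ C * ((Q * B') * (Q * T')) :=
        mul_le_mul_of_nonneg_left (mul_le_mul b1 b2 p2.le (by positivity)) hC
    _ = Q ^ 2 * (C * (B' * T')) := by ring
    _ ≤ Q ^ 2 * (F' * E') := mul_le_mul_of_nonneg_left h (by positivity)
    _ ≤ Q ^ 2 * ((Q * F) * (Q * E)) :=
        mul_le_mul_of_nonneg_left (mul_le_mul b3 b4 q4.le (by positivity)) (by positivity)
    _ = _ := by ring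

/-- The growth of the second difference of the two rows, handle closed. -/
theorem rows_grow' (hQ : 1 ≤ Q) (hH : 1 ≤ H) (hw : H + 1 ≤ w) {c : ℝ} (hc : 0 ≤ c)
    (hδ : (1 + c) * (1 + (Q ^ 2 - 1) * (1 - 1 / (1 + Q ^ 2)) ^ G) ^ 2 ≤
      1 + (Q ^ 2 - 1) * (1 / (1 + Q ^ 2)))
    (hn : (K : ℤ) * ((G + 1) * w) + G * w ≤ n) :
    (1 + c) ^ K * (W0 Q n H (Bt n) * W0 Q n H (Tp n H)) ≤
      Q ^ 4 * (W0 Q n H (Bt n ∪ Tp n H) * W0 Q n H ∅) := by
  have hQ0 : 0 < Q := by linarith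
  have h := rows_grow hQ hH hw hc hδ hn
  have hup : ∀ X : Finset (ℤ × ℤ), X ⊆ Bt n ∪ Tp n H → W0 Q n H (insert hu X) ≤ Q * W0 Q n H X ∧
      W0 Q n H X ≤ Q * W0 Q n H (insert hu X) := fun X hX =>
    hup_arith hQ (W0_pos hQ0) (Pc_nonneg hQ0) (Pc_le_one hQ0) (W0_flip hQ0 hX)
  obtain ⟨-, b1⟩ := hup (Bt n) Finset.subset_union_left
  obtain ⟨-, b2⟩ := hup (Tp n H) Finset.subset_union_right
  obtain ⟨b3, -⟩ := hup (Bt n ∪ Tp n H) le_rfl
  obtain ⟨b4, -⟩ := hup ∅ (Finset.empty_subset _)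
  exact fin_arith hQ (pow_nonneg (by linarith) K) (W0_pos hQ0) (W0_pos hQ0) (W0_pos hQ0)
    (W0_pos hQ0) b1 b2 b3 b4 h

end Vale.Agent.P167.H452
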