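import Vale.Agent.P167.H452.Sqr2
import Vale.Agent.P167.H452.SDefs

/-!
# P167, general `q`, block Q-SRSW: the strip with a handle
-/

namespace Vale.Agent.P167.H452

open Finset Vale.Agent.P167.FK Vale.Agent.P167.FKA Relation
open Vale.Agent.P153 Vale.Agent.P153.Topo
open Vale.Agent.P145.FB (PStep PConn)
open Vale.Agent.P167.H259 (PC_mono cf_mono cf_mono2 f_comp f_comp2 f_markov f_fkg flip_cf LN sum_inner
  Ex_out Zq_out cf_congr)

variable {Q : ℝ} {D D' : Finset (ℤ × ℤ)} {η ω : Cfg} {n s w g H : ℤ} {X Y Z : Finset (ℤ × ℤ)}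

theorem mem_St {v : ℤ × ℤ} : v ∈ St n H ↔ 0 ≤ v.1 ∧ v.1 < n ∧ 0 ≤ v.2 ∧ v.2 < H := by
  unfold St
  rw [Finset.mem_product, Finset.mem_Ico, Finset.mem_Ico]
  tauto

/-- The row below the strip. -/
noncomputable def Bt (n : ℤ) : Finset (ℤ × ℤ) := Finset.Ico 0 n ×ˢ {-1}

/-- The row above the strip. -/
noncomputable def Tp (n H : ℤ) : Finset (ℤ × ℤ) := Finset.Ico 0 n ×ˢ {H}

theorem mem_Bt {v : ℤ × ℤ} : v ∈ Bt n ↔ 0 ≤ v.1 ∧ v.1 < n ∧ v.2 = -1 := by
  unfold Bt
  rw [Finset.mem_product, Finset.mem_Ico, Finset.mem_singleton]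
  tauto

theorem mem_Tp {v : ℤ × ℤ} : v ∈ Tp n H ↔ 0 ≤ v.1 ∧ v.1 < n ∧ v.2 = H := by
  unfold Tp
  rw [Finset.mem_product, Finset.mem_Ico, Finset.mem_singleton]
  tauto

/-- The handle square. -/
def hu : ℤ × ℤ := (-2, 0)

/-- The outside: a row below, a row above, a column on the left (without the handle square). -/
def Ev (n H : ℤ) : Cfg := fun v => decide ((-2 ≤ v.1 ∧ v.1 < n ∧ (v.2 = -2 ∨ v.2 = H + 1)) ∨
  (v.1 = -2 ∧ -1 ≤ v.2 ∧ v.2 ≤ H ∧ v.2 ≠ 0))

theorem good_Ev (n H : ℤ) : Good (Ev n H) := by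
  refine good_fin (Finset.Ico (-2) n ×ˢ {-2, H + 1} ∪ {-2} ×ˢ Finset.Icc (-1) H) fun v hv => ?_
  unfold Ev
  rw [decide_eq_false_iff_not]
  intro h
  apply hv
  simp only [Finset.mem_union, Finset.mem_product, Finset.mem_Ico, Finset.mem_Icc,
    Finset.mem_singleton, Finset.mem_insert]
  tauto

/-- The larger domain: the strip, the two rows and the handle square. -/
noncomputable def Dm (n H : ℤ) : Finset (ℤ × ℤ) := insert hu (St n H ∪ (Bt n ∪ Tp n H))

theorem mem_Dm {v : ℤ × ℤ} : v ∈ Dm n H ↔ v = hu ∨ v ∈ St n H ∨ v ∈ Bt n ∨ v ∈ Tp n H := by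
  unfold Dm
  rw [Finset.mem_insert, Finset.mem_union, Finset.mem_union]

theorem St_sub_Dm : St n H ⊆ Dm n H := fun _ hv => mem_Dm.2 (Or.inr (Or.inl hv))

theorem row_sub (hX : X ⊆ Bt n ∪ Tp n H) : X ⊆ Dm n H \ St n H := by
  intro v hv
  have h1 := hX hv
  rw [Finset.mem_union, mem_Bt, mem_Tp] at h1
  rw [Finset.mem_sdiff, mem_Dm, mem_Bt, mem_Tp, mem_St]
  refine ⟨by tauto, ?_⟩
  intro h2
  rcases h1 with h1 | h1 <;> omega

theorem hu_notMem (hX : X ⊆ Bt n ∪ Tp n H) : hu ∉ X := by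
  intro h
  have h1 := hX h
  rw [Finset.mem_union, mem_Bt, mem_Tp] at h1
  unfold hu at h1
  simp only at h1
  omega

theorem hu_St : hu ∉ St n H := by
  rw [mem_St]
  unfold hu
  simp only
  omega

/-- The open squares outside of the strip. -/
theorem out_open {v : ℤ × ℤ} (h : cf (Dm n H) (Ev n H) X v = true) :
    v ∈ X ∨ (-2 ≤ v.1 ∧ v.1 < n ∧ (v.2 = -2 ∨ v.2 = H + 1)) ∨
      (v.1 = -2 ∧ -1 ≤ v.2 ∧ v.2 ≤ H ∧ v.2 ≠ 0) := by
  unfold cf at h
  split_ifs at h with h1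
  · exact Or.inl (of_decide_eq_true h)
  · right
    exact of_decide_eq_true h

theorem ev_open (hX : X ⊆ Bt n ∪ Tp n H) (hH : 1 ≤ H) {v : ℤ × ℤ} (S : Finset (ℤ × ℤ))
    (h : v ∈ X ∨ (-2 ≤ v.1 ∧ v.1 < n ∧ (v.2 = -2 ∨ v.2 = H + 1)) ∨
      (v.1 = -2 ∧ -1 ≤ v.2 ∧ v.2 ≤ H ∧ v.2 ≠ 0)) :
    cf (St n H) (cf (Dm n H) (Ev n H) X) S v = true := by
  rcases h with h | h
  · have h1 := Finset.mem_sdiff.1 (row_sub hX h)
    rw [cf_out h1.2]
    unfold cf
    rw [if_pos h1.1]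
    exact decide_eq_true h
  · have h1 : v ∉ Dm n H := by
      rw [mem_Dm, mem_St, mem_Bt, mem_Tp]
      unfold hu
      rintro (h2 | h2)
      · subst h2
        simp only at h
        omega
      · omega
    rw [cf_out (fun h2 => h1 (St_sub_Dm h2)), cf_out h1]
    unfold Ev
    exact decide_eq_true h

theorem pa_hu : pa hu = (-2, 0) := by
  unfold pa hu
  rw [if_pos (by decide)]

theorem pb_hu : pb hu = (-1, 1) := by
  unfold pb hu
  rw [if_pos (by decide)]
  rfl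

/-- **Separation.** If the bottom row is open only on the left of the rectangle and the top row only on
its right, then the handle is connected only through a horizontal crossing of the rectangle. -/
theorem conn_hc (hX : X ⊆ Bt n ∪ Tp n H) (hH : 1 ≤ H) (hg : 0 ≤ g) (hw : 1 ≤ w)
    (hXb : ∀ v ∈ X, v.2 = -1 → v.1 < g) (hXt : ∀ v ∈ X, v.2 = H → g + w ≤ v.1)
    {S : Finset (ℤ × ℤ)}
    (h : PC (cf (St n H) (cf (Dm n H) (Ev n H) X) S) (pa hu) (pb hu)) :
    cf (St n H) (cf (Dm n H) (Ev n H) X) S ∈ HC g w H := by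
  by_contra hno
  set ω := cf (St n H) (cf (Dm n H) (Ev n H) X) S with hω
  rw [pa_hu, pb_hu] at h
  obtain ⟨P, hP⟩ : ∃ P : ℤ × ℤ → Prop, ∀ z, P z ↔ ∃ y : ℤ × ℤ, y.1 = g ∧ Even (y.1 + y.2) ∧
    PConn (op ω) (Rect g (g + w) 0 H) y z := ⟨_, fun _ => Iff.rfl⟩
  have hright : ∀ z, P z → g ≤ z.1 ∧ z.1 < g + w ∧ 0 ≤ z.2 ∧ z.2 ≤ H := by
    intro z hz
    obtain ⟨y, h3, h4, h5⟩ := (hP z).1 hz
    have h6 := mem_rect.1 h5.right_mem
    refine ⟨h6.1, ?_, h6.2.2.1, h6.2.2.2⟩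
    by_contra h7
    push Not at h7
    exact hno ⟨y, z, h4, h3, le_antisymm h6.2.1 h7, h5⟩
  have hLR : ∀ z : ℤ × ℤ, Even (z.1 + z.2) → z.1 = g → 0 ≤ z.2 → z.2 ≤ H → P z :=
    fun z h2 h3 h4 h5 => (hP z).2 ⟨z, h3, h2, PConn.refl (mem_rect.2 ⟨h3.ge, by omega, h4, h5⟩)⟩
  have htl : ∀ z z' : ℤ × ℤ, P z → PStep (op ω) z z' → g ≤ z'.1 → z'.1 ≤ g + w → 0 ≤ z'.2 →
      z'.2 ≤ H → P z' := fun z z' h2 h3 h4 h5 h6 h7 => by
    obtain ⟨y, i1, i2, i3⟩ := (hP z).1 h2
    exact (hP z').2 ⟨y, i1, i2, i3.tail h3 (mem_rect.2 ⟨h4, h5, h6, h7⟩)⟩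
  -- the invariant set
  have key : ∀ z : ℤ × ℤ, ReflTransGen (PStep (op ω)) (-2, 0) z → Even (z.1 + z.2) ∧
      (z.2 ≤ -1 ∨ (z.1 < 0 ∧ z.2 ≤ 0) ∨ (0 ≤ z.1 ∧ z.1 < g ∧ 0 ≤ z.2 ∧ z.2 ≤ H) ∨ P z) := by
    intro z hz
    induction hz with
    | refl => exact ⟨by decide, Or.inr (Or.inl ⟨by norm_num, le_rfl⟩)⟩
    | @tail z z' _ h2 ih =>
      obtain ⟨hze, ih⟩ := ih
      have hze' : Even (z'.1 + z'.2) := (FKA.even_step h2).1 hze
      refine ⟨hze', ?_⟩
      obtain ⟨c1, c2⟩ := cor_of_step h2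
      have hv : ω (min z.1 z'.1, min z.2 z'.2) = true := h2.2.2
      generalize hvv : ((min z.1 z'.1, min z.2 z'.2) : ℤ × ℤ) = v at c1 c2 hv
      unfold Cor at c1 c2
      have hr := hright z
      by_cases hvS : v ∈ St n H
      · rw [mem_St] at hvS
        rcases lt_or_ge v.1 g with h3 | h3
        · rcases lt_or_ge z'.1 g with h4 | h4
          · exact Or.inr (Or.inr (Or.inl (by omega)))
          · exact Or.inr (Or.inr (Or.inr (hLR z' hze' (by omega) (by omega) (by omega))))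
        · rcases lt_or_ge v.1 (g + w) with h4 | h4
          · rcases ih with ih | ih | ih | ih
            · omega
            · omega
            · omega
            · exact Or.inr (Or.inr (Or.inr (htl z z' ih h2 (by omega) (by omega) (by omega)
                (by omega))))
          · rcases ih with ih | ih | ih | ih
            · omega
            · omega
            · omega
            · have := hr ih
              omega
      · have hv' := hv
        rw [hω, cf_out hvS] at hv'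
        rcases out_open hv' with h3 | h3 | h3
        · have h4 := hX h3
          rw [Finset.mem_union, mem_Bt, mem_Tp] at h4
          rcases h4 with h4 | h4
          · have h5 := hXb v h3 h4.2.2
            rcases lt_or_ge z'.2 0 with h6 | h6
            · exact Or.inl (by omega)
            · rcases lt_or_ge z'.1 g with h7 | h7
              · exact Or.inr (Or.inr (Or.inl (by omega)))
              · exact Or.inr (Or.inr (Or.inr (hLR z' hze' (by omega) (by omega) (by omega))))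
          · have h5 := hXt v h3 h4.2.2
            rcases ih with ih | ih | ih | ih
            · omega
            · omega
            · omega
            · have := hr ih
              omega
        · rcases h3.2.2 with h4 | h4
          · exact Or.inl (by omega)
          · rcases ih with ih | ih | ih | ih
            · omega
            · omega
            · omega
            · have := hr ih
              omega
        · rcases lt_or_ge v.2 0 with h4 | h4
          · rcases lt_or_ge z'.2 0 with h6 | h6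
            · exact Or.inl (by omega)
            · exact Or.inr (Or.inl (by omega))
          · rcases ih with ih | ih | ih | ih
            · omega
            · omega
            · omega
            · have := hr ih
              omega
  obtain ⟨-, h1⟩ := key (-1, 1) h
  have hr := hright (-1, 1)
  rcases h1 with h1 | h1 | h1 | h1
  · simp only at h1
    omega
  · simp only at h1
    omega
  · simp only at h1
    omega
  · have := (hr h1).1
    simp only at this
    omega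

/-- **Connection.** A vertical crossing between open blocks of the rows connects the handle. -/
theorem vc_conn (hX : X ⊆ Bt n ∪ Tp n H) (hH : 1 ≤ H) (hs : 0 ≤ s) (hw : 1 ≤ w) (hsn : s + w ≤ n)
    (hXb : ∀ x, s ≤ x → x < s + w → (x, -1) ∈ X) (hXt : ∀ x, s ≤ x → x < s + w → (x, H) ∈ X)
    {S : Finset (ℤ × ℤ)} (h : cf (St n H) (cf (Dm n H) (Ev n H) X) S ∈ VC s w H) :
    PC (cf (St n H) (cf (Dm n H) (Ev n H) X) S) (pa hu) (pb hu) := by
  obtain ⟨z, z', hz, hz2, hz2', hp⟩ := h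
  have hzR := mem_rect.1 hp.left_mem
  have hzR' := mem_rect.1 hp.right_mem
  have hze' : Even (z'.1 + z'.2) := by
    have := hp.parity
    rw [Int.even_iff] at hz ⊢
    omega
  set ω := cf (St n H) (cf (Dm n H) (Ev n H) X) S with hω
  have ho := fun {v : ℤ × ℤ} h => ev_open (v := v) hX hH S h
  rw [← hω] at ho
  rw [pa_hu, pb_hu]
  have he0 : Even ((-2 : ℤ) + 0) := by decide
  have he1 : Even ((-1 : ℤ) + 1) := by decide
  -- the lower part
  have lowr : ∀ x : ℤ, -2 ≤ x → x < n → ω (x, -2) = true := fun x h1 h2 =>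
    ho (Or.inr (Or.inl ⟨h1, h2, Or.inl rfl⟩))
  have lowc : ∀ y : ℤ, -2 ≤ y → y < 0 → ω (-2, y) = true := fun y h1 h2 => by
    rcases (show y = -2 ∨ y = -1 by omega) with rfl | rfl
    · exact lowr _ le_rfl (by omega)
    · exact ho (Or.inr (Or.inr ⟨rfl, by norm_num, by simp only; omega, by norm_num⟩))
  have upr : ∀ x : ℤ, -2 ≤ x → x < n → ω (x, H + 1) = true := fun x h1 h2 =>
    ho (Or.inr (Or.inl ⟨h1, h2, Or.inr rfl⟩))
  have upc : ∀ y : ℤ, 1 ≤ y → y < H + 2 → ω (-2, y) = true := fun y h1 h2 => by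
    rcases (show y = H + 1 ∨ y ≤ H by omega) with rfl | h3
    · exact upr _ le_rfl (by omega)
    · exact ho (Or.inr (Or.inr ⟨rfl, by simp only; omega, h3, by simp only; omega⟩))
  -- the row square below `z`
  have a1 : ∃ x, s ≤ x ∧ x < s + w ∧ Cor (x, -1) z := by
    rcases lt_or_ge z.1 (s + w) with h4 | h4
    · exact ⟨z.1, hzR.1, h4, Or.inl rfl, Or.inr (by simp only; omega)⟩
    · exact ⟨z.1 - 1, by omega, by omega, Or.inr (by simp only; omega), Or.inr (by simp only; omega)⟩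
  obtain ⟨x, hx1, hx2, hx3⟩ := a1
  have a2 : ω (x, -1) = true := ho (Or.inl (hXb x hx1 hx2))
  -- the common corner of `(x, -1)` and `(x, -2)`
  obtain ⟨t, ht, htc, htc'⟩ : ∃ t : ℤ × ℤ, Even (t.1 + t.2) ∧ Cor (x, -1) t ∧ Cor (x, -2) t := by
    by_cases he : Even (x + -1)
    · exact ⟨(x, -1), he, ⟨Or.inl rfl, Or.inl rfl⟩, ⟨Or.inl rfl, Or.inr rfl⟩⟩
    · refine ⟨(x + 1, -1), ?_, ⟨Or.inr rfl, Or.inl rfl⟩, ⟨Or.inr rfl, Or.inr rfl⟩⟩
      rw [Int.even_iff] at he ⊢
      simp only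
      omega
  have b1 : PC ω z t := pc_cor a2 hx3 hz htc ht
  have b2 : PC ω t (pa (-2, -2)) := row_cor lowr ht (cor_pa _).2 ⟨x, by omega, by omega, htc'⟩
    ⟨-2, le_rfl, by omega, (cor_pa _).1⟩
  have b3 : PC ω (pa (-2, -2)) (-2, 0) := col_cor lowc (cor_pa _).2 he0
    ⟨-2, le_rfl, by omega, (cor_pa _).1⟩ ⟨-1, by omega, by omega, ⟨Or.inl rfl, Or.inr rfl⟩⟩
  -- the upper part
  have a1' : ∃ x, s ≤ x ∧ x < s + w ∧ Cor (x, H) z' := by
    rcases lt_or_ge z'.1 (s + w) with h4 | h4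
    · exact ⟨z'.1, hzR'.1, h4, Or.inl rfl, Or.inl (by simp only; omega)⟩
    · exact ⟨z'.1 - 1, by omega, by omega, Or.inr (by simp only; omega),
        Or.inl (by simp only; omega)⟩
  obtain ⟨x', hx1', hx2', hx3'⟩ := a1'
  have a2' : ω (x', H) = true := ho (Or.inl (hXt x' hx1' hx2'))
  obtain ⟨t', ht', htc1, htc1'⟩ : ∃ t : ℤ × ℤ, Even (t.1 + t.2) ∧ Cor (x', H) t ∧
      Cor (x', H + 1) t := by
    by_cases he : Even (x' + (H + 1))
    · exact ⟨(x', H + 1), he, ⟨Or.inl rfl, Or.inr rfl⟩, ⟨Or.inl rfl, Or.inl rfl⟩⟩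
    · refine ⟨(x' + 1, H + 1), ?_, ⟨Or.inr rfl, Or.inr rfl⟩, ⟨Or.inr rfl, Or.inl rfl⟩⟩
      rw [Int.even_iff] at he ⊢
      simp only
      omega
  have b1' : PC ω z' t' := pc_cor a2' hx3' hze' htc1 ht'
  have b2' : PC ω t' (pa (-2, H + 1)) := row_cor upr ht' (cor_pa _).2
    ⟨x', by omega, by omega, htc1'⟩ ⟨-2, le_rfl, by omega, (cor_pa _).1⟩
  have b3' : PC ω (pa (-2, H + 1)) (-1, 1) := col_cor upc (cor_pa _).2 he1
    ⟨H + 1, by omega, by omega, (cor_pa _).1⟩ ⟨1, by omega, by omega, ⟨Or.inr rfl, Or.inl rfl⟩⟩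
  have b4 : PC ω z z' := rtg_of_pconn hp
  exact pc_trans (pc_symm (pc_trans (pc_trans b1 b2) b3))
    (pc_trans b4 (pc_trans (pc_trans b1' b2') b3'))

end Vale.Agent.P167.H452
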