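import Mathlib

/-!
# P167, general `q`, block Q-SRSW: second differences of log-supermodular weights
-/

namespace Vale.Agent.P167.H452

open Finset

variable {α : Type*} [DecidableEq α]

/-- One step of the telescoping. `x i` increases, `y j` decreases. -/
theorem tel_step {w : ℕ → ℕ → ℝ} {K i : ℕ} {c : ℝ} (hw : ∀ i j, 0 < w i j) (hc : 0 ≤ c)
    (h1 : w (i + 1) i * w i 0 ≤ w (i + 1) 0 * w i i)
    (h2 : (1 + c) * (w (i + 1) (i + 1) * w i i) ≤ w (i + 1) i * w i (i + 1))
    (h3 : w (i + 1) K * w i (i + 1) ≤ w (i + 1) (i + 1) * w i K) :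
    (1 + c) * (w (i + 1) K * w i 0) ≤ w (i + 1) 0 * w i K := by
  have p1 := hw i i
  have p2 := hw (i + 1) i
  have p3 := hw (i + 1) (i + 1)
  have p4 := hw i (i + 1)
  have p5 := hw (i + 1) K
  have p6 := hw i 0
  have p7 := hw (i + 1) 0
  have p8 := hw i K
  generalize w i i = a at *
  generalize w (i + 1) i = b at *
  generalize w (i + 1) (i + 1) = d at *
  generalize w i (i + 1) = e at *
  generalize w (i + 1) K = f at *
  generalize w i 0 = g at *
  generalize w (i + 1) 0 = h at *
  generalize w i K = k at *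
  -- multiply by `a * b * d * e`
  have h4 : ((1 + c) * (f * g)) * (a * b * d * e) ≤ (h * k) * (a * b * d * e) := by
    calc ((1 + c) * (f * g)) * (a * b * d * e)
        = (b * g) * ((1 + c) * (d * a)) * (f * e) := by ring
      _ ≤ (h * a) * (b * e) * (d * k) := by
          refine mul_le_mul (mul_le_mul h1 h2 (by positivity) (by positivity)) h3 (by positivity)
            (by positivity)
      _ = _ := by ring
  exact le_of_mul_le_mul_right h4 (by positivity)

/-- The telescoping. -/
theorem tel_all {w : ℕ → ℕ → ℝ} {K : ℕ} {c : ℝ} (hw : ∀ i j, 0 < w i j) (hc : 0 ≤ c)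
    (h : ∀ i < K, (1 + c) * (w (i + 1) K * w i 0) ≤ w (i + 1) 0 * w i K) :
    ∀ i ≤ K, (1 + c) ^ i * (w i K * w 0 0) ≤ w i 0 * w 0 K := by
  intro i
  induction i with
  | zero =>
    intro _
    rw [pow_zero, one_mul, mul_comm]
  | succ i ih =>
    intro hi
    have h1 := ih (by omega)
    have h2 := h i (by omega)
    have p1 := hw (i + 1) K
    have p2 := hw i 0
    have p3 := hw i K
    have p4 := hw (i + 1) 0
    have p5 := hw 0 0
    have p6 := hw 0 K
    generalize w (i + 1) K = a at *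
    generalize w i 0 = b at *
    generalize w i K = d at *
    generalize w (i + 1) 0 = e at *
    generalize w 0 0 = f at *
    generalize w 0 K = g at *
    have h3 : ((1 + c) ^ (i + 1) * (a * f)) * (b * d) ≤ (e * g) * (b * d) := by
      calc ((1 + c) ^ (i + 1) * (a * f)) * (b * d)
          = ((1 + c) ^ i * (d * f)) * ((1 + c) * (a * b)) := by ring
        _ ≤ (b * g) * (e * d) := mul_le_mul h1 h2 (by positivity) (by positivity)
        _ = _ := by ring
    exact le_of_mul_le_mul_right h3 (by positivity)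

/-- From the blocks to the whole rows. -/
theorem full_of_blocks {W : Finset α → ℝ} {B T X Y u : Finset α} {C : ℝ} (hW : ∀ Z, 0 < W Z)
    (hC : 0 ≤ C)
    (hlat : ∀ Z Z' : Finset α, Z ⊆ u ∪ (B ∪ T) → Z' ⊆ u ∪ (B ∪ T) →
      W Z * W Z' ≤ W (Z ∩ Z') * W (Z ∪ Z'))
    (hX : X ⊆ B) (hY : Y ⊆ T) (hBT : Disjoint B T)
    (h : C * (W (u ∪ X) * W (u ∪ Y)) ≤ W (u ∪ (X ∪ Y)) * W u) :
    C * (W (u ∪ B) * W (u ∪ T)) ≤ W (u ∪ (B ∪ T)) * W u := by
  have e1 := hlat (u ∪ B) (u ∪ (X ∪ T)) (by
      intro v hv; simp only [Finset.mem_union] at hv ⊢; tauto) (by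
      intro v hv
      simp only [Finset.mem_union] at hv ⊢
      rcases hv with hv | hv | hv
      · exact Or.inl hv
      · exact Or.inr (Or.inl (hX hv))
      · exact Or.inr (Or.inr hv))
  have i1 : (u ∪ B) ∩ (u ∪ (X ∪ T)) = u ∪ X := by
    ext v
    simp only [Finset.mem_inter, Finset.mem_union]
    constructor
    · rintro ⟨h1 | h1, h2 | h2 | h2⟩
      · exact Or.inl h1
      · exact Or.inl h1
      · exact Or.inl h1
      · exact Or.inl h2
      · exact Or.inr h2
      · exact absurd h2 (Finset.disjoint_left.1 hBT h1)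
    · rintro (h1 | h1)
      · exact ⟨Or.inl h1, Or.inl h1⟩
      · exact ⟨Or.inr (hX h1), Or.inr (Or.inl h1)⟩
  have j1 : (u ∪ B) ∪ (u ∪ (X ∪ T)) = u ∪ (B ∪ T) := by
    ext v
    simp only [Finset.mem_union]
    constructor
    · rintro ((h1 | h1) | (h1 | h1 | h1))
      · exact Or.inl h1
      · exact Or.inr (Or.inl h1)
      · exact Or.inl h1
      · exact Or.inr (Or.inl (hX h1))
      · exact Or.inr (Or.inr h1)
    · rintro (h1 | h1 | h1)
      · exact Or.inl (Or.inl h1)
      · exact Or.inl (Or.inr h1)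
      · exact Or.inr (Or.inr (Or.inr h1))
  have e2 := hlat (u ∪ T) (u ∪ (X ∪ Y)) (by
      intro v hv; simp only [Finset.mem_union] at hv ⊢; tauto) (by
      intro v hv
      simp only [Finset.mem_union] at hv ⊢
      rcases hv with hv | hv | hv
      · exact Or.inl hv
      · exact Or.inr (Or.inl (hX hv))
      · exact Or.inr (Or.inr (hY hv)))
  have i2 : (u ∪ T) ∩ (u ∪ (X ∪ Y)) = u ∪ Y := by
    ext v
    simp only [Finset.mem_inter, Finset.mem_union]
    constructor
    · rintro ⟨h1 | h1, h2 | h2 | h2⟩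
      · exact Or.inl h1
      · exact Or.inl h1
      · exact Or.inl h1
      · exact Or.inl h2
      · exact absurd h1 (Finset.disjoint_left.1 hBT (hX h2))
      · exact Or.inr h2
    · rintro (h1 | h1)
      · exact ⟨Or.inl h1, Or.inl h1⟩
      · exact ⟨Or.inr (hY h1), Or.inr (Or.inr h1)⟩
  have j2 : (u ∪ T) ∪ (u ∪ (X ∪ Y)) = u ∪ (X ∪ T) := by
    ext v
    simp only [Finset.mem_union]
    constructor
    · rintro ((h1 | h1) | (h1 | h1 | h1))
      · exact Or.inl h1
      · exact Or.inr (Or.inr h1)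
      · exact Or.inl h1
      · exact Or.inr (Or.inl h1)
      · exact Or.inr (Or.inr (hY h1))
    · rintro (h1 | h1 | h1)
      · exact Or.inl (Or.inl h1)
      · exact Or.inr (Or.inr (Or.inl h1))
      · exact Or.inl (Or.inr h1)
  rw [i1, j1] at e1
  rw [i2, j2] at e2
  have p1 := hW (u ∪ X)
  have p2 := hW (u ∪ Y)
  have p3 := hW (u ∪ (X ∪ T))
  have p4 := hW (u ∪ (X ∪ Y))
  have p5 := hW (u ∪ B)
  have p6 := hW (u ∪ T)
  have p7 := hW (u ∪ (B ∪ T))
  have p8 := hW u
  generalize W (u ∪ X) = a at *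
  generalize W (u ∪ Y) = b at *
  generalize W (u ∪ (X ∪ T)) = d at *
  generalize W (u ∪ (X ∪ Y)) = e at *
  generalize W (u ∪ B) = f at *
  generalize W (u ∪ T) = g at *
  generalize W (u ∪ (B ∪ T)) = k at *
  generalize W u = m at *
  have h4 : (C * (f * g)) * (a * b * d * e) ≤ (k * m) * (a * b * d * e) := by
    calc (C * (f * g)) * (a * b * d * e) = (f * d) * (g * e) * (C * (a * b)) := by ring
      _ ≤ (a * k) * (b * d) * (e * m) := by
          refine mul_le_mul (mul_le_mul e1 e2 (by positivity) (by positivity)) h (by positivity)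
            (by positivity)
      _ = _ := by ring
  exact le_of_mul_le_mul_right h4 (by positivity)

end Vale.Agent.P167.H452
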