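import Vale.Agent.P167.H452.Env
import Vale.Agent.P167.H452.Lat

/-!
# P167, general `q`, block Q-SRSW: the second difference of a pair of facing blocks
-/

namespace Vale.Agent.P167.H452

open Finset Filter Topology Vale.Agent.P167.FK Vale.Agent.P167.FKA
open Vale.Agent.P167.H259 (f_markov)

variable {Q : ℝ} {D D' : Finset (ℤ × ℤ)} {η ω : Cfg} {n s w g H : ℤ} {X Y Z : Finset (ℤ × ℤ)}

/-- The product of the indicators of the crossings of `m` adjacent rectangles. -/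
noncomputable def FH (g w H : ℤ) (m : ℕ) (ω : Cfg) : ℝ :=
  ∏ k ∈ Finset.range m, (HC (g + k * w) w H).indicator 1 ω

theorem FH_nonneg (m : ℕ) (ω : Cfg) : 0 ≤ FH g w H m ω :=
  Finset.prod_nonneg fun _ _ => ind_nonneg _ _

theorem FH_ind (hw : 1 ≤ w) (m : ℕ) : Ind (Rc (g + m * w) w H) (FH g w H m) := by
  intro ω ω' h
  unfold FH
  refine Finset.prod_congr rfl fun k hk => ?_
  rw [Finset.mem_range] at hk
  refine loc_HC (g + k * w) w H ω ω' fun v hv => h v fun hv' => ?_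
  rw [mem_Rc] at hv hv'
  have : (k : ℤ) + 1 ≤ m := by exact_mod_cast hk
  nlinarith

theorem ex_FH (hQ : 1 ≤ Q) (hη : Good η) (hH : 1 ≤ H) (hw : H + 1 ≤ w) (hg : 0 ≤ g) (m : ℕ)
    (hgn : g + m * w ≤ n)
    (hrow : ∀ x, g ≤ x → x < g + m * w → η (x, -1) = false ∧ η (x, H) = false) :
    Ex Q (St n H) η (FH g w H m) ≤ (1 - 1 / (1 + Q ^ 2)) ^ m := by
  have hQ0 : 0 < Q := by linarith
  have ha : 0 ≤ 1 - 1 / (1 + Q ^ 2) := by
    have : 1 / (1 + Q ^ 2) ≤ 1 := by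
      rw [div_le_one (by positivity)]
      nlinarith
    linarith
  induction m with
  | zero =>
    have e : FH g w H 0 = fun _ => 1 := by
      funext ω
      simp [FH]
    rw [e, Ex_const hQ0, pow_zero]
  | succ m ih =>
    have hcast : ((m + 1 : ℕ) : ℤ) = (m : ℤ) + 1 := by push_cast; ring
    rw [hcast] at hgn hrow
    have hm0 : (0 : ℤ) ≤ m := by positivity
    have hw0 : 0 ≤ (m : ℤ) * w := mul_nonneg hm0 (by omega)
    have e0 : g + ((m : ℤ) + 1) * w = g + m * w + w := by ring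
    rw [e0] at hgn hrow
    have ih' := ih (by omega) (fun x h1 h2 => hrow x h1 (by omega))
    have hsub : Rc (g + m * w) w H ⊆ St n H := by
      intro v hv
      rw [mem_Rc] at hv
      rw [mem_St]
      omega
    have e : FH g w H (m + 1) = fun ω => FH g w H m ω * (HC (g + m * w) w H).indicator 1 ω := by
      funext ω
      unfold FH
      rw [Finset.prod_range_succ]
    rw [e, markov f_markov hQ0 hsub hη (FH_ind (by omega) m), pow_succ, mul_comm _ (1 - _)]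
    calc Ex Q (St n H) η (fun ω => FH g w H m ω *
          Ex Q (Rc (g + m * w) w H) ω ((HC (g + m * w) w H).indicator 1))
        ≤ Ex Q (St n H) η (fun ω => (1 - 1 / (1 + Q ^ 2)) * FH g w H m ω) := by
          refine Ex_mono hQ0 fun S _ => ?_
          rw [mul_comm (1 - 1 / (1 + Q ^ 2))]
          refine mul_le_mul_of_nonneg_left ?_ (FH_nonneg m _)
          refine hc_le' hQ hH hw (f_good.1 _ _ _ hη) fun x h1 h2 => ?_
          rw [cf_out (by rw [mem_St]; simp only; omega), cf_out (by rw [mem_St]; simp only; omega)]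
          exact hrow x (by omega) (by omega)
      _ = (1 - 1 / (1 + Q ^ 2)) * Ex Q (St n H) η (FH g w H m) := Ex_mul_left _ _
      _ ≤ _ := mul_le_mul_of_nonneg_left ih' ha

/-- The probability that the handle is connected through the strip. -/
noncomputable def Pc (Q : ℝ) (n H : ℤ) (X : Finset (ℤ × ℤ)) : ℝ :=
  Pr Q (St n H) (cf (Dm n H) (Ev n H) X) {ω | PC ω (pa hu) (pb hu)}

theorem Pc_nonneg (hQ : 0 < Q) : 0 ≤ Pc Q n H X := Pr_nonneg hQ _

theorem Pc_le_one (hQ : 0 < Q) : Pc Q n H X ≤ 1 := Pr_le_one hQ _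

/-- Upper bound: a gap of `m` rectangles. -/
theorem Pc_le (hQ : 1 ≤ Q) (hH : 1 ≤ H) (hw : H + 1 ≤ w) (hg : 0 ≤ g) (m : ℕ) (hgn : g + m * w ≤ n)
    (hX : X ⊆ Bt n ∪ Tp n H) (hXb : ∀ v ∈ X, v.2 = -1 → v.1 < g)
    (hXt : ∀ v ∈ X, v.2 = H → g + m * w ≤ v.1) :
    Pc Q n H X ≤ (1 - 1 / (1 + Q ^ 2)) ^ m := by
  have hQ0 : 0 < Q := by linarith
  have hcl : ∀ v : ℤ × ℤ, v ∈ Bt n ∪ Tp n H → v ∉ X → cf (Dm n H) (Ev n H) X v = false := by
    intro v hv hvX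
    have h1 := row_sub (H := H) (n := n) (X := {v}) (by
      intro a ha
      rw [Finset.mem_singleton] at ha
      rw [ha]
      exact hv) (Finset.mem_singleton_self v)
    unfold cf
    rw [if_pos (Finset.mem_sdiff.1 h1).1]
    exact decide_eq_false hvX
  refine le_trans ?_ (ex_FH (η := cf (Dm n H) (Ev n H) X) hQ (f_good.1 _ _ _ (good_Ev n H)) hH hw hg
    m hgn fun x h1 h2 => ⟨?_, ?_⟩)
  · unfold Pc Pr
    refine Ex_mono hQ0 fun S _ => ?_
    by_cases hp : PC (cf (St n H) (cf (Dm n H) (Ev n H) X) S) (pa hu) (pb hu)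
    · rw [Set.indicator_of_mem (show cf (St n H) (cf (Dm n H) (Ev n H) X) S ∈
        {ω | PC ω (pa hu) (pb hu)} from hp)]
      unfold FH
      rw [Finset.prod_eq_one fun k hk => ?_]
      · rfl
      · rw [Finset.mem_range] at hk
        have hk' : (k : ℤ) + 1 ≤ m := by exact_mod_cast hk
        have hk0 : (0 : ℤ) ≤ k := by positivity
        have hkw : 0 ≤ (k : ℤ) * w := mul_nonneg hk0 (by omega)
        have hkm : (k : ℤ) * w + w ≤ m * w := by nlinarith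
        rw [Set.indicator_of_mem (conn_hc hX hH (by omega) (by omega)
          (fun v hv h2 => by have := hXb v hv h2; omega)
          (fun v hv h2 => by have := hXt v hv h2; omega) hp)]
        rfl
    · rw [Set.indicator_of_notMem (show cf (St n H) (cf (Dm n H) (Ev n H) X) S ∉
        {ω | PC ω (pa hu) (pb hu)} from hp)]
      exact FH_nonneg m _
  · refine hcl _ ?_ fun h => ?_
    · rw [Finset.mem_union, mem_Bt]
      left
      exact ⟨by simp only; omega, by simp only; omega, rfl⟩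
    · have := hXb _ h rfl
      simp only at this
      omega
  · refine hcl _ ?_ fun h => ?_
    · rw [Finset.mem_union, mem_Tp]
      right
      exact ⟨by simp only; omega, by simp only; omega, rfl⟩
    · have := hXt _ h rfl
      simp only at this
      omega

/-- Lower bound: facing open blocks. -/
theorem Pc_ge (hQ : 1 ≤ Q) (hH : 1 ≤ H) (hw : H + 1 ≤ w) (hs : 0 ≤ s) (hsn : s + w ≤ n)
    (hX : X ⊆ Bt n ∪ Tp n H) (hXb : ∀ x, s ≤ x → x < s + w → (x, -1) ∈ X)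
    (hXt : ∀ x, s ≤ x → x < s + w → (x, H) ∈ X) :
    1 / (1 + Q ^ 2) ≤ Pc Q n H X := by
  have hQ0 : 0 < Q := by linarith
  refine (vc_ge hQ hH hw s).trans ?_
  have h1 : Pr Q (Rc s w H) (ho s w H) (VC s w H) ≤
      Pr Q (St n H) (cf (Dm n H) (Ev n H) X) (VC s w H) := by
    refine le_inner hQ (good_ho _ _ _) (f_good.1 _ _ _ (good_Ev n H)) (fun v hv => ?_)
      (inc_VC _ _ _).incF fun v hv => ?_
    · rw [mem_Rc] at hv
      rw [mem_St]
      omega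
    · unfold ho at hv
      rw [decide_eq_true_eq] at hv
      have h2 : v ∈ X := by
        rcases hv.2.2 with h | h
        · have := hXb v.1 hv.1 hv.2.1
          rw [← h] at this
          exact this
        · have := hXt v.1 hv.1 hv.2.1
          rw [← h] at this
          exact this
      have h3 := Finset.mem_sdiff.1 (row_sub hX h2)
      refine ⟨h3.2, ?_⟩
      unfold cf
      rw [if_pos h3.1]
      exact decide_eq_true h2
  refine h1.trans ?_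
  unfold Pc Pr
  refine Ex_mono hQ0 fun S _ => ?_
  by_cases hv : cf (St n H) (cf (Dm n H) (Ev n H) X) S ∈ VC s w H
  · rw [Set.indicator_of_mem hv, Set.indicator_of_mem
      (show cf (St n H) (cf (Dm n H) (Ev n H) X) S ∈ {ω | PC ω (pa hu) (pb hu)} from
        vc_conn hX hH hs (by omega) hsn hXb hXt hv)]
  · rw [Set.indicator_of_notMem hv]
    exact ind_nonneg _ _

/-! ### the weights -/

/-- The weight of the rows. -/
noncomputable def W0 (Q : ℝ) (n H : ℤ) (X : Finset (ℤ × ℤ)) : ℝ := WW Q (St n H) (Dm n H) (Ev n H) X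

theorem W0_pos (hQ : 0 < Q) : 0 < W0 Q n H X := WW_pos hQ _ _ _ _

theorem W0_flip (hQ : 0 < Q) (hX : X ⊆ Bt n ∪ Tp n H) :
    W0 Q n H (insert hu X) = Q⁻¹ * W0 Q n H X * (1 + (Q ^ 2 - 1) * Pc Q n H X) :=
  WW_flip hQ (good_Ev n H) St_sub_Dm (row_sub hX) (mem_Dm.2 (Or.inl rfl)) hu_St (hu_notMem hX)

theorem W0_lattice (hQ : 1 ≤ Q) (hX : X ⊆ Dm n H \ St n H) (hY : Y ⊆ Dm n H \ St n H) :
    W0 Q n H X * W0 Q n H Y ≤ W0 Q n H (X ∩ Y) * W0 Q n H (X ∪ Y) :=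
  WW_lattice hQ (good_Ev n H) St_sub_Dm hX hY

theorem Bt_Tp (hH : 1 ≤ H) : Disjoint (Bt n) (Tp n H) := by
  rw [Finset.disjoint_left]
  intro v h1 h2
  rw [mem_Bt] at h1
  rw [mem_Tp] at h2
  omega

theorem lat_sets {X1 X2 Y1 Y2 : Finset (ℤ × ℤ)} (hH : 1 ≤ H) (hX : X1 ⊆ X2) (hX2 : X2 ⊆ Bt n)
    (hY : Y1 ⊆ Y2) (hY2 : Y2 ⊆ Tp n H) :
    (X2 ∪ Y1) ∩ (X1 ∪ Y2) = X1 ∪ Y1 ∧ (X2 ∪ Y1) ∪ (X1 ∪ Y2) = X2 ∪ Y2 := by
  have hd := Finset.disjoint_left.1 (Bt_Tp (n := n) (H := H) hH)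
  constructor
  · ext v
    simp only [Finset.mem_inter, Finset.mem_union]
    constructor
    · rintro ⟨h1 | h1, h2 | h2⟩
      · exact Or.inl h2
      · exact absurd (hY2 h2) (hd (hX2 h1))
      · exact Or.inl h2
      · exact Or.inr h1
    · rintro (h1 | h1)
      · exact ⟨Or.inl (hX h1), Or.inl h1⟩
      · exact ⟨Or.inr h1, Or.inr (hY h1)⟩
  · ext v
    simp only [Finset.mem_union]
    constructor
    · rintro ((h1 | h1) | (h1 | h1))
      · exact Or.inl h1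
      · exact Or.inr (hY h1)
      · exact Or.inl (hX h1)
      · exact Or.inr h1
    · rintro (h1 | h1)
      · exact Or.inl (Or.inl h1)
      · exact Or.inr (Or.inr h1)

theorem rows_union {X1 Y1 : Finset (ℤ × ℤ)} (hX : X1 ⊆ Bt n) (hY : Y1 ⊆ Tp n H) :
    X1 ∪ Y1 ⊆ Bt n ∪ Tp n H := Finset.union_subset_union hX hY

theorem ins_sub (hX : X ⊆ Bt n ∪ Tp n H) : insert hu X ⊆ Dm n H \ St n H := by
  intro v hv
  rw [Finset.mem_insert] at hv
  rcases hv with rfl | hv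
  · exact Finset.mem_sdiff.2 ⟨mem_Dm.2 (Or.inl rfl), hu_St⟩
  · exact row_sub hX hv

/-- Second differences are nonnegative, handle closed. -/
theorem W0_two {X1 X2 Y1 Y2 : Finset (ℤ × ℤ)} (hQ : 1 ≤ Q) (hH : 1 ≤ H) (hX : X1 ⊆ X2)
    (hX2 : X2 ⊆ Bt n) (hY : Y1 ⊆ Y2) (hY2 : Y2 ⊆ Tp n H) :
    W0 Q n H (X2 ∪ Y1) * W0 Q n H (X1 ∪ Y2) ≤ W0 Q n H (X1 ∪ Y1) * W0 Q n H (X2 ∪ Y2) := by
  obtain ⟨e1, e2⟩ := lat_sets hH hX hX2 hY hY2
  have h := W0_lattice (Q := Q) (n := n) (H := H) hQ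
    (row_sub (rows_union hX2 (hY.trans hY2))) (row_sub (rows_union (hX.trans hX2) hY2))
  rwa [e1, e2] at h

/-- Second differences are nonnegative, handle open. -/
theorem W0_two' {X1 X2 Y1 Y2 : Finset (ℤ × ℤ)} (hQ : 1 ≤ Q) (hH : 1 ≤ H) (hX : X1 ⊆ X2)
    (hX2 : X2 ⊆ Bt n) (hY : Y1 ⊆ Y2) (hY2 : Y2 ⊆ Tp n H) :
    W0 Q n H (insert hu (X2 ∪ Y1)) * W0 Q n H (insert hu (X1 ∪ Y2)) ≤
      W0 Q n H (insert hu (X1 ∪ Y1)) * W0 Q n H (insert hu (X2 ∪ Y2)) := by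
  obtain ⟨e1, e2⟩ := lat_sets hH hX hX2 hY hY2
  have h := W0_lattice (Q := Q) (n := n) (H := H) hQ
    (ins_sub (rows_union hX2 (hY.trans hY2))) (ins_sub (rows_union (hX.trans hX2) hY2))
  rwa [← Finset.insert_inter_distrib, e1, ← Finset.insert_union_distrib, e2] at h

/-- **The second difference of two facing blocks.** -/
theorem W0_diag {X1 X2 Y1 Y2 : Finset (ℤ × ℤ)} (hQ : 1 ≤ Q) (hH : 1 ≤ H) (hX : X1 ⊆ X2)
    (hX2 : X2 ⊆ Bt n) (hY : Y1 ⊆ Y2) (hY2 : Y2 ⊆ Tp n H) {c δ : ℝ} (hc : 0 ≤ c)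
    (h21 : Pc Q n H (X2 ∪ Y1) ≤ δ) (h12 : Pc Q n H (X1 ∪ Y2) ≤ δ)
    (h22 : 1 / (1 + Q ^ 2) ≤ Pc Q n H (X2 ∪ Y2))
    (hδ : (1 + c) * (1 + (Q ^ 2 - 1) * δ) ^ 2 ≤ 1 + (Q ^ 2 - 1) * (1 / (1 + Q ^ 2))) :
    (1 + c) * (W0 Q n H (insert hu (X2 ∪ Y1)) * W0 Q n H (insert hu (X1 ∪ Y2))) ≤
      W0 Q n H (insert hu (X2 ∪ Y2)) * W0 Q n H (insert hu (X1 ∪ Y1)) := by
  have hQ0 : 0 < Q := by linarith
  have hq : 0 ≤ Q ^ 2 - 1 := by nlinarith
  have h := W0_two (Q := Q) (n := n) (H := H) hQ hH hX hX2 hY hY2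
  rw [W0_flip hQ0 (rows_union hX2 (hY.trans hY2)), W0_flip hQ0 (rows_union (hX.trans hX2) hY2),
    W0_flip hQ0 (rows_union hX2 hY2), W0_flip hQ0 (rows_union (hX.trans hX2) (hY.trans hY2))]
  have p21 := Pc_nonneg (Q := Q) (n := n) (H := H) (X := X2 ∪ Y1) hQ0
  have p12 := Pc_nonneg (Q := Q) (n := n) (H := H) (X := X1 ∪ Y2) hQ0
  have p11 := Pc_nonneg (Q := Q) (n := n) (H := H) (X := X1 ∪ Y1) hQ0
  have w21 := W0_pos (Q := Q) (n := n) (H := H) (X := X2 ∪ Y1) hQ0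
  have w12 := W0_pos (Q := Q) (n := n) (H := H) (X := X1 ∪ Y2) hQ0
  have w11 := W0_pos (Q := Q) (n := n) (H := H) (X := X1 ∪ Y1) hQ0
  have w22 := W0_pos (Q := Q) (n := n) (H := H) (X := X2 ∪ Y2) hQ0
  generalize Pc Q n H (X2 ∪ Y1) = a at *
  generalize Pc Q n H (X1 ∪ Y2) = b at *
  generalize Pc Q n H (X1 ∪ Y1) = d at *
  generalize Pc Q n H (X2 ∪ Y2) = e at *
  generalize W0 Q n H (X2 ∪ Y1) = u21 at *
  generalize W0 Q n H (X1 ∪ Y2) = u12 at *
  generalize W0 Q n H (X1 ∪ Y1) = u11 at *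
  generalize W0 Q n H (X2 ∪ Y2) = u22 at *
  generalize Q ^ 2 - 1 = r at *
  have hQi : 0 < Q⁻¹ := inv_pos.2 hQ0
  generalize Q⁻¹ = t at *
  have h1 : (1 + c) * ((1 + r * a) * (1 + r * b)) ≤ 1 + r * e := by
    have e1 : (1 + r * a) * (1 + r * b) ≤ (1 + r * δ) * (1 + r * δ) := by
      refine mul_le_mul ?_ ?_ (by positivity) (by nlinarith [mul_nonneg hq p21])
      · nlinarith [mul_le_mul_of_nonneg_left h21 hq]
      · nlinarith [mul_le_mul_of_nonneg_left h12 hq]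
    have e2 := mul_le_mul_of_nonneg_left e1 (show (0 : ℝ) ≤ 1 + c by linarith)
    have e3 := mul_le_mul_of_nonneg_left h22 hq
    nlinarith
  have h2 : (1 + c) * ((1 + r * a) * (1 + r * b)) ≤ (1 + r * e) * (1 + r * d) := by
    refine h1.trans ?_
    have : 0 ≤ 1 + r * e := le_trans (by positivity) h1
    nlinarith [mul_nonneg hq p11, mul_nonneg this (mul_nonneg hq p11)]
  calc (1 + c) * (t * u21 * (1 + r * a) * (t * u12 * (1 + r * b)))
      = t ^ 2 * (u21 * u12) * ((1 + c) * ((1 + r * a) * (1 + r * b))) := by ring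
    _ ≤ t ^ 2 * (u11 * u22) * ((1 + r * e) * (1 + r * d)) := by
        refine mul_le_mul (mul_le_mul_of_nonneg_left h (by positivity)) h2 (by positivity)
          (by positivity)
    _ = _ := by ring

/-- The constants. -/
theorem exists_G (hQ : 1 < Q) : ∃ (c : ℝ) (G : ℕ), 0 < c ∧ 1 ≤ G ∧
    (1 + c) * (1 + (Q ^ 2 - 1) * (1 - 1 / (1 + Q ^ 2)) ^ G) ^ 2 ≤
      1 + (Q ^ 2 - 1) * (1 / (1 + Q ^ 2)) := by
  have hq : 0 < Q ^ 2 - 1 := by nlinarith
  have hq1 : 0 < 1 + Q ^ 2 := by positivity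
  set c0 := (Q ^ 2 - 1) * (1 / (1 + Q ^ 2)) with hc0
  have hc0p : 0 < c0 := by positivity
  have ha0 : 0 ≤ 1 - 1 / (1 + Q ^ 2) := by
    have : 1 / (1 + Q ^ 2) ≤ 1 := by
      rw [div_le_one hq1]
      linarith
    linarith
  have ha1 : 1 - 1 / (1 + Q ^ 2) < 1 := by
    have : 0 < 1 / (1 + Q ^ 2) := by positivity
    linarith
  have ht : Tendsto (fun G : ℕ => (1 + c0 / 2) * (1 + (Q ^ 2 - 1) * (1 - 1 / (1 + Q ^ 2)) ^ G) ^ 2)
      atTop (𝓝 ((1 + c0 / 2) * (1 + (Q ^ 2 - 1) * 0) ^ 2)) :=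
    ((((tendsto_pow_atTop_nhds_zero_of_lt_one ha0 ha1).const_mul _).const_add 1).pow 2).const_mul _
  have hlt : (1 + c0 / 2) * (1 + (Q ^ 2 - 1) * 0) ^ 2 < 1 + c0 := by
    rw [mul_zero, add_zero, one_pow, mul_one]
    linarith
  obtain ⟨G, hG1, hG2⟩ := ((ht.eventually_lt_const hlt).and (eventually_ge_atTop 1)).exists
  exact ⟨c0 / 2, G, by positivity, hG2, hG1.le⟩

end Vale.Agent.P167.H452
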