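import Vale.Agent.P167.H452.Kb
import Vale.Agent.P167.H452.Blk

/-!
# P167, general `q`, block Q-SRSW: `S_FKG`
-/

namespace Vale.Agent.P167.H452

open Finset Vale.Agent.P167.FK Vale.Agent.P167.FKA
open Vale.Agent.P145.FB (PStep)
open Vale.Agent.P167.H259 (LN LN_congr)

variable {Q : ℝ} {η ω ω' : Cfg} {n H : ℤ} {X Y Z : Finset (ℤ × ℤ)}

/-- The primal sites along the interface are connected. -/
theorem pc_ls_nx (ω : Cfg) (e : Ed) : PC ω (ls e) (ls (nx ω e)) := by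
  cases h : ω (hdv e)
  · rw [ls_nx h]
    exact pc_refl _
  · have c1 : Cor (hdv e) (ls e) := ⟨(BR.corner_hd e).1, (BR.corner_hd e).2.1⟩
    have c2 : Cor (hdv e) (ls (nx ω e)) := by
      rw [← tlv_nx ω e]
      exact ⟨(BR.corner_tl _).1, (BR.corner_tl _).2.1⟩
    exact pc_cor h c1 (FK.even_ls _) c2 (FK.even_ls _)

theorem pc_loop {ℓ : Finset Ed} (h : IsLoop ω ℓ) {e e' : Ed} (he : e ∈ ℓ) (he' : e' ∈ ℓ) :
    PC ω (ls e) (ls e') :=
  h.induct (p := fun x => PC ω (ls e) (ls x)) (fun x _ hx => pc_trans hx (pc_ls_nx ω x)) he he'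
    (pc_refl _)

/-- No loop off the strip visits both rows. -/
theorem no_both (hX : X ⊆ Bt n ∪ Tp n H) (hH : 1 ≤ H) {ℓ : Finset Ed}
    (h : IsLoop (cf (Dm n H) (Ev n H) X) ℓ) {v v' : ℤ × ℤ} (hv : v ∈ vs ℓ) (hvB : v ∈ Bt n)
    (hv' : v' ∈ vs ℓ) (hvT : v' ∈ Tp n H) : False := by
  obtain ⟨e, he, rfl⟩ := Finset.mem_image.1 hv
  obtain ⟨e', he', rfl⟩ := Finset.mem_image.1 hv'
  have hp := pc_loop h he he'
  set ω := cf (Dm n H) (Ev n H) X with hω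
  have key : ∀ z z' : ℤ × ℤ, z.2 ≤ 0 → PC ω z z' → z'.2 ≤ 0 := by
    intro z z' hz hp
    unfold PC at hp
    induction hp with
    | refl => exact hz
    | @tail a b _ h2 ih =>
      obtain ⟨c1, c2⟩ := cor_of_step h2
      have hv : ω (min a.1 b.1, min a.2 b.2) = true := h2.2.2
      generalize ((min a.1 b.1, min a.2 b.2) : ℤ × ℤ) = v at c1 c2 hv
      unfold Cor at c1 c2
      rcases out_open hv with h3 | h3 | h3
      · have h4 := hX h3
        rw [Finset.mem_union, mem_Bt, mem_Tp] at h4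
        omega
      · omega
      · omega
  have c1 := (BR.corner_hd e).2.1
  have c2 := (BR.corner_hd e').2.1
  rw [mem_Bt] at hvB
  rw [mem_Tp] at hvT
  have := key _ _ (by omega) hp
  omega

/-- The loops off the strip, sorted. -/
theorem LN_split3 (hX : X ⊆ Bt n ∪ Tp n H) (hH : 1 ≤ H) :
    LN (St n H) (Dm n H) (cf (Dm n H) (Ev n H) X) =
      LN (St n H ∪ Tp n H) (Bt n) (cf (Dm n H) (Ev n H) X) +
      LN (St n H ∪ Bt n) (Tp n H) (cf (Dm n H) (Ev n H) X) +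
      LN (St n H ∪ (Bt n ∪ Tp n H)) {hu} (cf (Dm n H) (Ev n H) X) := by
  have hno := fun {ℓ : Finset Ed} h {v v' : ℤ × ℤ} hv hvB hv' hvT =>
    no_both (ℓ := ℓ) (v := v) (v' := v') hX hH h hv hvB hv' hvT
  set ω := cf (Dm n H) (Ev n H) X with hω
  unfold LN
  have hfin : ∀ (D' : Finset (ℤ × ℤ)) (s : Set (Finset Ed)),
      (∀ ℓ ∈ s, IsLoop ω ℓ ∧ ∃ v ∈ vs ℓ, v ∈ D') → s.Finite := fun D' s hs =>
    (H45.LV_fin s_two D' ω).subset fun ℓ hℓ => hs ℓ hℓ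
  set A := {ℓ | IsLoop ω ℓ ∧ (∃ v ∈ vs ℓ, v ∈ Bt n) ∧ ∀ v ∈ vs ℓ, v ∉ St n H ∪ Tp n H} with hA
  set B := {ℓ | IsLoop ω ℓ ∧ (∃ v ∈ vs ℓ, v ∈ Tp n H) ∧ ∀ v ∈ vs ℓ, v ∉ St n H ∪ Bt n} with hB
  set C := {ℓ | IsLoop ω ℓ ∧ (∃ v ∈ vs ℓ, v ∈ ({hu} : Finset (ℤ × ℤ))) ∧
    ∀ v ∈ vs ℓ, v ∉ St n H ∪ (Bt n ∪ Tp n H)} with hC
  have fA : A.Finite := hfin (Bt n) A fun ℓ hℓ => ⟨hℓ.1, hℓ.2.1⟩
  have fB : B.Finite := hfin (Tp n H) B fun ℓ hℓ => ⟨hℓ.1, hℓ.2.1⟩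
  have fC : C.Finite := hfin {hu} C fun ℓ hℓ => ⟨hℓ.1, hℓ.2.1⟩
  have dAB : Disjoint A B := by
    rw [Set.disjoint_left]
    rintro ℓ ⟨_, ⟨v, hv, hvB⟩, _⟩ ⟨_, _, h3⟩
    exact h3 v hv (Finset.mem_union_right _ hvB)
  have dABC : Disjoint (A ∪ B) C := by
    rw [Set.disjoint_left]
    rintro ℓ (⟨_, ⟨v, hv, hvB⟩, _⟩ | ⟨_, ⟨v, hv, hvB⟩, _⟩) ⟨_, _, h3⟩
    · exact h3 v hv (Finset.mem_union_right _ (Finset.mem_union_left _ hvB))
    · exact h3 v hv (Finset.mem_union_right _ (Finset.mem_union_right _ hvB))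
  rw [← Set.ncard_union_eq dAB fA fB, ← Set.ncard_union_eq dABC (fA.union fB) fC]
  congr 1
  ext ℓ
  constructor
  · rintro ⟨h1, ⟨v, hv, hvD⟩, h3⟩
    by_cases hb : ∃ v ∈ vs ℓ, v ∈ Bt n
    · left; left
      refine ⟨h1, hb, fun v' hv' h4 => ?_⟩
      rcases Finset.mem_union.1 h4 with h4 | h4
      · exact h3 v' hv' h4
      · obtain ⟨b, hb1, hb2⟩ := hb
        exact hno h1 hb1 hb2 hv' h4
    · push Not at hb
      by_cases ht : ∃ v ∈ vs ℓ, v ∈ Tp n H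
      · left; right
        refine ⟨h1, ht, fun v' hv' h4 => ?_⟩
        rcases Finset.mem_union.1 h4 with h4 | h4
        · exact h3 v' hv' h4
        · exact hb v' hv' h4
      · push Not at ht
        right
        refine ⟨h1, ⟨v, hv, ?_⟩, fun v' hv' h4 => ?_⟩
        · rcases mem_Dm.1 hvD with h5 | h5 | h5 | h5
          · rw [Finset.mem_singleton]
            exact h5
          · exact absurd h5 (h3 v hv)
          · exact absurd h5 (hb v hv)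
          · exact absurd h5 (ht v hv)
        · rcases Finset.mem_union.1 h4 with h4 | h4
          · exact h3 v' hv' h4
          · rcases Finset.mem_union.1 h4 with h4 | h4
            · exact hb v' hv' h4
            · exact ht v' hv' h4
  · rintro ((⟨h1, ⟨v, hv, hvD⟩, h3⟩ | ⟨h1, ⟨v, hv, hvD⟩, h3⟩) | ⟨h1, ⟨v, hv, hvD⟩, h3⟩)
    · exact ⟨h1, ⟨v, hv, mem_Dm.2 (Or.inr (Or.inr (Or.inl hvD)))⟩,
        fun v' hv' h4 => h3 v' hv' (Finset.mem_union_left _ h4)⟩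
    · exact ⟨h1, ⟨v, hv, mem_Dm.2 (Or.inr (Or.inr (Or.inr hvD)))⟩,
        fun v' hv' h4 => h3 v' hv' (Finset.mem_union_left _ h4)⟩
    · exact ⟨h1, ⟨v, hv, mem_Dm.2 (Or.inl (Finset.mem_singleton.1 hvD))⟩,
        fun v' hv' h4 => h3 v' hv' (Finset.mem_union_left _ h4)⟩

/-- The numbers of the loops off the strip are additive. -/
theorem LN_add (hH : 1 ≤ H) : LN (St n H) (Dm n H) (cf (Dm n H) (Ev n H) (Bt n ∪ Tp n H)) +
      LN (St n H) (Dm n H) (cf (Dm n H) (Ev n H) ∅) =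
    LN (St n H) (Dm n H) (cf (Dm n H) (Ev n H) (Bt n)) +
      LN (St n H) (Dm n H) (cf (Dm n H) (Ev n H) (Tp n H)) := by
  have hd := Finset.disjoint_left.1 (Bt_Tp (n := n) (H := H) hH)
  have hag : ∀ (A : Finset (ℤ × ℤ)) (X Y : Finset (ℤ × ℤ)), (∀ v, v ∉ A → (v ∈ X ↔ v ∈ Y)) →
      ∀ v, v ∉ A → cf (Dm n H) (Ev n H) X v = cf (Dm n H) (Ev n H) Y v := by
    intro A X Y h v hv
    unfold cf
    simp only [h v hv]
  have h1 := LN_congr (D' := Bt n) (hag (St n H ∪ Tp n H) (Bt n ∪ Tp n H) (Bt n) (fun v hv => by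
    rw [Finset.mem_union] at hv ⊢; tauto))
  have h2 := LN_congr (D' := Bt n) (hag (St n H ∪ Tp n H) (Tp n H) ∅ (fun v hv => by
    rw [Finset.mem_union] at hv
    simp only [Finset.notMem_empty, iff_false]
    tauto))
  have h3 := LN_congr (D' := Tp n H) (hag (St n H ∪ Bt n) (Bt n ∪ Tp n H) (Tp n H) (fun v hv => by
    rw [Finset.mem_union] at hv ⊢; tauto))
  have h4 := LN_congr (D' := Tp n H) (hag (St n H ∪ Bt n) (Bt n) ∅ (fun v hv => by
    rw [Finset.mem_union] at hv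
    simp only [Finset.notMem_empty, iff_false]
    tauto))
  have h5 := LN_congr (D' := {hu}) (hag (St n H ∪ (Bt n ∪ Tp n H)) (Bt n ∪ Tp n H) (Tp n H)
    (fun v hv => by
      rw [Finset.mem_union, Finset.mem_union] at hv
      rw [Finset.mem_union]; tauto))
  have h6 := LN_congr (D' := {hu}) (hag (St n H ∪ (Bt n ∪ Tp n H)) (Bt n) ∅
    (fun v hv => by
      rw [Finset.mem_union, Finset.mem_union] at hv
      simp only [Finset.notMem_empty, iff_false]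
      tauto))
  rw [LN_split3 (X := Bt n ∪ Tp n H) le_rfl hH, LN_split3 (X := ∅) (Finset.empty_subset _) hH,
    LN_split3 (X := Bt n) Finset.subset_union_left hH,
    LN_split3 (X := Tp n H) Finset.subset_union_right hH, h1, h2, h3, h4, h5, h6]
  ring

/-- The partition functions of the strip for the same states of the rows. -/
theorem Zq_le (hQ : 1 ≤ Q) (hH : 1 ≤ H) {η η' : Cfg} {a b : Bool} (hb : ∀ v ∈ Bt n, η v = a)
    (ht : ∀ v ∈ Tp n H, η v = b) (hb' : ∀ v ∈ Bt n, η' v = a) (ht' : ∀ v ∈ Tp n H, η' v = b) :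
    Zq Q (St n H) η ≤ Q ^ (2 * (H + 2).toNat) * Zq Q (St n H) η' := by
  unfold Zq
  rw [Finset.mul_sum]
  refine Finset.sum_le_sum fun S _ => ?_
  rw [← pow_add]
  refine pow_le_pow_right₀ hQ ?_
  have hoB : ∀ v ∈ Bt n, v ∉ St n H := fun v hv h => by
    rw [mem_Bt] at hv; rw [mem_St] at h; omega
  have hoT : ∀ v ∈ Tp n H, v ∉ St n H := fun v hv h => by
    rw [mem_Tp] at hv; rw [mem_St] at h; omega
  rw [add_comm]
  refine LD_le (ω := cf (St n H) η S) (ω' := cf (St n H) η' S) hH (a := a) (b := b)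
    (fun v hv => ?_) (fun v hv => ?_) fun v hv => ?_
  · rw [cf_out (hoB v hv), hb v hv]
  · rw [cf_out (hoT v hv), ht v hv]
  · rcases hv with hv | hv | hv
    · unfold cf
      rw [if_pos hv, if_pos hv]
    · rw [cf_out (hoB v hv), cf_out (hoB v hv), hb v hv, hb' v hv]
    · rw [cf_out (hoT v hv), cf_out (hoT v hv), ht v hv, ht' v hv]

theorem et_Bt {a b : Bool} : ∀ v ∈ Bt n, et n H a b v = a := by
  intro v hv
  rw [mem_Bt] at hv
  unfold et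
  rw [if_pos ⟨hv.1, hv.2.1⟩, if_pos hv.2.2]

theorem et_Tp (hH : 1 ≤ H) {a b : Bool} : ∀ v ∈ Tp n H, et n H a b v = b := by
  intro v hv
  rw [mem_Tp] at hv
  unfold et
  rw [if_pos ⟨hv.1, hv.2.1⟩, if_neg (by omega), if_pos hv.2.2]

theorem cf_row (X : Finset (ℤ × ℤ)) {v : ℤ × ℤ} (hv : v ∈ Bt n ∪ Tp n H) :
    cf (Dm n H) (Ev n H) X v = decide (v ∈ X) := by
  have h1 : v ∈ Dm n H := by
    rw [mem_Dm]
    rw [Finset.mem_union] at hv
    tauto
  unfold cf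
  rw [if_pos h1]

end Vale.Agent.P167.H452
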