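import Vale.Agent.P167.H452.Fkg

/-!
# P167, general `q`, block Q-SRSW: `S_FKG` for all `q > 1`
-/

namespace Vale.Agent.P167.H452

open Finset Vale.Agent.P167.FK Vale.Agent.P167.FKA
open Vale.Agent.P167.H259 (LN LN_congr)

variable {Q : ℝ} {n w H : ℤ} {G K : ℕ}

/-- The four partition functions. -/
theorem Zs_grow (hQ : 1 ≤ Q) (hH : 1 ≤ H) (hw : H + 1 ≤ w) {c : ℝ} (hc : 0 ≤ c)
    (hδ : (1 + c) * (1 + (Q ^ 2 - 1) * (1 - 1 / (1 + Q ^ 2)) ^ G) ^ 2 ≤
      1 + (Q ^ 2 - 1) * (1 / (1 + Q ^ 2)))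
    (hn : (K : ℤ) * ((G + 1) * w) + G * w ≤ n) :
    (1 + c) ^ K * (Zs Q n H false true * Zs Q n H true false) ≤
      Q ^ (4 + 8 * (H + 2).toNat) * (Zs Q n H false false * Zs Q n H true true) := by
  have hQ0 : 0 < Q := by linarith
  have h := rows_grow' hQ hH hw hc hδ hn
  have hd := Finset.disjoint_left.1 (Bt_Tp (n := n) (H := H) hH)
  unfold W0 at h
  rw [WW_eq hQ0 St_sub_Dm (row_sub Finset.subset_union_left),
    WW_eq hQ0 St_sub_Dm (row_sub Finset.subset_union_right),
    WW_eq hQ0 St_sub_Dm (row_sub le_rfl),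
    WW_eq hQ0 St_sub_Dm (row_sub (Finset.empty_subset _))] at h
  have hLN := LN_add (n := n) (H := H) hH
  have b1 : Zs Q n H true false ≤ Q ^ (2 * (H + 2).toNat) *
      Zq Q (St n H) (cf (Dm n H) (Ev n H) (Bt n)) := by
    refine Zq_le hQ hH et_Bt (et_Tp hH) (fun v hv => ?_) fun v hv => ?_
    · rw [cf_row _ (Finset.mem_union_left _ hv)]
      exact decide_eq_true hv
    · rw [cf_row _ (Finset.mem_union_right _ hv)]
      exact decide_eq_false fun h => hd h hv
  have b2 : Zs Q n H false true ≤ Q ^ (2 * (H + 2).toNat) *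
      Zq Q (St n H) (cf (Dm n H) (Ev n H) (Tp n H)) := by
    refine Zq_le hQ hH et_Bt (et_Tp hH) (fun v hv => ?_) fun v hv => ?_
    · rw [cf_row _ (Finset.mem_union_left _ hv)]
      exact decide_eq_false fun h => hd hv h
    · rw [cf_row _ (Finset.mem_union_right _ hv)]
      exact decide_eq_true hv
  have b3 : Zq Q (St n H) (cf (Dm n H) (Ev n H) (Bt n ∪ Tp n H)) ≤
      Q ^ (2 * (H + 2).toNat) * Zs Q n H true true := by
    refine Zq_le hQ hH (fun v hv => ?_) (fun v hv => ?_) et_Bt (et_Tp hH)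
    · rw [cf_row _ (Finset.mem_union_left _ hv)]
      exact decide_eq_true (Finset.mem_union_left _ hv)
    · rw [cf_row _ (Finset.mem_union_right _ hv)]
      exact decide_eq_true (Finset.mem_union_right _ hv)
  have b4 : Zq Q (St n H) (cf (Dm n H) (Ev n H) ∅) ≤
      Q ^ (2 * (H + 2).toNat) * Zs Q n H false false := by
    refine Zq_le hQ hH (fun v hv => ?_) (fun v hv => ?_) et_Bt (et_Tp hH)
    · rw [cf_row _ (Finset.mem_union_left _ hv)]
      rfl
    · rw [cf_row _ (Finset.mem_union_right _ hv)]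
      rfl
  have z1 : 0 < Zs Q n H true false := Zq_pos hQ0 _ _
  have z2 : 0 < Zs Q n H false true := Zq_pos hQ0 _ _
  have z3 : 0 < Zs Q n H true true := Zq_pos hQ0 _ _
  have z4 : 0 < Zs Q n H false false := Zq_pos hQ0 _ _
  have y1 := Zq_pos hQ0 (St n H) (cf (Dm n H) (Ev n H) (Bt n))
  have y2 := Zq_pos hQ0 (St n H) (cf (Dm n H) (Ev n H) (Tp n H))
  have y3 := Zq_pos hQ0 (St n H) (cf (Dm n H) (Ev n H) (Bt n ∪ Tp n H))
  have y4 := Zq_pos hQ0 (St n H) (cf (Dm n H) (Ev n H) ∅)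
  generalize LN (St n H) (Dm n H) (cf (Dm n H) (Ev n H) (Bt n ∪ Tp n H)) = l3 at *
  generalize LN (St n H) (Dm n H) (cf (Dm n H) (Ev n H) ∅) = l4 at *
  generalize LN (St n H) (Dm n H) (cf (Dm n H) (Ev n H) (Bt n)) = l1 at *
  generalize LN (St n H) (Dm n H) (cf (Dm n H) (Ev n H) (Tp n H)) = l2 at *
  generalize Zq Q (St n H) (cf (Dm n H) (Ev n H) (Bt n)) = y1v at *
  generalize Zq Q (St n H) (cf (Dm n H) (Ev n H) (Tp n H)) = y2v at *
  generalize Zq Q (St n H) (cf (Dm n H) (Ev n H) (Bt n ∪ Tp n H)) = y3v at *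
  generalize Zq Q (St n H) (cf (Dm n H) (Ev n H) ∅) = y4v at *
  generalize Zs Q n H true false = z1v at *
  generalize Zs Q n H false true = z2v at *
  generalize Zs Q n H true true = z3v at *
  generalize Zs Q n H false false = z4v at *
  generalize hk : 2 * (H + 2).toNat = k at *
  have hk' : 8 * (H + 2).toNat = 4 * k := by omega
  rw [hk']
  have hC : 0 ≤ (1 + c) ^ K := pow_nonneg (by linarith) K
  generalize (1 + c) ^ K = C at *
  -- cancel the loops
  have hl : 0 < Q ^ (l1 + l2) := pow_pos hQ0 _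
  have h1 : (C * (y1v * y2v)) * Q ^ (l1 + l2) ≤ (Q ^ 4 * (y3v * y4v)) * Q ^ (l1 + l2) := by
    calc (C * (y1v * y2v)) * Q ^ (l1 + l2) = C * (Q ^ l1 * y1v * (Q ^ l2 * y2v)) := by
          rw [pow_add]; ring
      _ ≤ Q ^ 4 * (Q ^ l3 * y3v * (Q ^ l4 * y4v)) := h
      _ = (Q ^ 4 * (y3v * y4v)) * Q ^ (l3 + l4) := by rw [pow_add]; ring
      _ = _ := by rw [hLN]
  have h2 := le_of_mul_le_mul_right h1 hl
  have hQk : 0 < Q ^ k := pow_pos hQ0 _
  calc C * (z2v * z1v) ≤ C * ((Q ^ k * y2v) * (Q ^ k * y1v)) :=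
        mul_le_mul_of_nonneg_left (mul_le_mul b2 b1 z1.le (by positivity)) hC
    _ = (Q ^ k) ^ 2 * (C * (y1v * y2v)) := by ring
    _ ≤ (Q ^ k) ^ 2 * (Q ^ 4 * (y3v * y4v)) := mul_le_mul_of_nonneg_left h2 (by positivity)
    _ ≤ (Q ^ k) ^ 2 * (Q ^ 4 * ((Q ^ k * z3v) * (Q ^ k * z4v))) := by
        refine mul_le_mul_of_nonneg_left (mul_le_mul_of_nonneg_left
          (mul_le_mul b3 b4 y4.le (by positivity)) (by positivity)) (by positivity)
    _ = _ := by
        rw [pow_add, show 4 * k = k + k + k + k by ring, pow_add, pow_add, pow_add]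
        ring

/-- **(2)** -/
theorem s_fkg (hQ : 1 < Q) : S_FKG Q := by
  have hQ0 : 0 < Q := by linarith
  obtain ⟨c, G, hc, hG, hδ⟩ := exists_G hQ
  have hlog : 0 < Real.log (1 + c) := Real.log_pos (by linarith)
  set d : ℕ := 8 * (G + 1) with hd
  have hd0 : (0 : ℝ) < d := by rw [hd]; positivity
  refine ⟨Real.log (1 + c) / d, 1, div_pos hlog hd0, le_rfl, fun M hM => ?_⟩
  -- the constant for small `m`
  set f : ℕ → ℝ := fun m => Real.exp (Real.log (1 + c) / d * m) *
    (Zs Q (2 * M * m) (8 * M) false true * Zs Q (2 * M * m) (8 * M) true false) /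
      (Zs Q (2 * M * m) (8 * M) false false * Zs Q (2 * M * m) (8 * M) true true) with hf
  have zp : ∀ m : ℕ, 0 < Zs Q (2 * M * m) (8 * M) false false * Zs Q (2 * M * m) (8 * M) true true :=
    fun m => mul_pos (Zq_pos hQ0 _ _) (Zq_pos hQ0 _ _)
  have zp' : ∀ m : ℕ, 0 < Zs Q (2 * M * m) (8 * M) false true * Zs Q (2 * M * m) (8 * M) true false :=
    fun m => mul_pos (Zq_pos hQ0 _ _) (Zq_pos hQ0 _ _)
  have hf0 : ∀ m, 0 < f m := fun m =>
    div_pos (mul_pos (Real.exp_pos _) (zp' m)) (zp m)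
  set C1 : ℝ := ∑ m ∈ Finset.range (8 * G), f m with hC1
  set C2 : ℝ := (1 + c) ^ 2 * Q ^ (4 + 8 * (8 * M + 2).toNat) with hC2
  have hC1n : 0 ≤ C1 := Finset.sum_nonneg fun m _ => (hf0 m).le
  have hC2p : 0 < C2 := mul_pos (pow_pos (by linarith) _) (pow_pos hQ0 _)
  refine ⟨C1 + C2, by linarith, fun m => ?_⟩
  rcases lt_or_ge m (8 * G) with hm | hm
  · have h1 : f m ≤ C1 := Finset.single_le_sum (f := f) (fun i _ => (hf0 i).le)
      (Finset.mem_range.2 hm)
    have h2 : Real.exp (Real.log (1 + c) / d * m) *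
        (Zs Q (2 * M * m) (8 * M) false true * Zs Q (2 * M * m) (8 * M) true false) =
        f m * (Zs Q (2 * M * m) (8 * M) false false * Zs Q (2 * M * m) (8 * M) true true) := by
      rw [hf]
      simp only
      rw [div_mul_cancel₀ _ (zp m).ne']
    rw [h2]
    refine mul_le_mul_of_nonneg_right ?_ (zp m).le
    linarith
  · -- the number of the blocks
    set K : ℕ := (m - 8 * G) / d with hK
    have hKm : d * K ≤ m - 8 * G := Nat.mul_div_le _ _
    have hKm' : m - 8 * G < d * (K + 1) := by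
      have := Nat.lt_mul_div_succ (m - 8 * G) (show 0 < d by omega)
      simpa using this
    have hn : (K : ℤ) * ((G + 1) * (16 * M)) + G * (16 * M) ≤ 2 * M * m := by
      have h1 : ((d * K : ℕ) : ℤ) + 8 * G ≤ m := by
        have : d * K + 8 * G ≤ m := by omega
        exact_mod_cast this
      have h2 : ((d * K : ℕ) : ℤ) = 8 * (G + 1) * K := by
        rw [hd]
        push_cast
        ring
      rw [h2] at h1
      have h3 := mul_le_mul_of_nonneg_left h1 (show (0 : ℤ) ≤ 2 * M by omega)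
      calc (K : ℤ) * ((G + 1) * (16 * M)) + G * (16 * M) = 2 * M * (8 * (G + 1) * K + 8 * G) := by
            ring
        _ ≤ 2 * M * m := h3
    have h := Zs_grow (n := 2 * M * m) (H := 8 * M) (w := 16 * M) (K := K) (G := G) hQ.le (by omega)
      (by omega) hc.le hδ hn
    -- the rate
    have hrate : Real.exp (Real.log (1 + c) / d * m) ≤ (1 + c) ^ 2 * (1 + c) ^ K := by
      rw [← pow_add, ← Real.exp_log (show (0 : ℝ) < (1 + c) ^ (2 + K) by positivity), Real.log_pow]
      refine Real.exp_le_exp.2 ?_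
      rw [div_mul_eq_mul_div, div_le_iff₀ hd0]
      have h1 : (m : ℝ) ≤ (2 + K) * d := by
        have h2 : m ≤ (2 + K) * d := by
          have h3 : m < d * (K + 1) + 8 * G := by omega
          have h4 : 8 * G ≤ d := by rw [hd]; omega
          nlinarith
        exact_mod_cast h2
      have h2 := mul_le_mul_of_nonneg_left h1 hlog.le
      push_cast
      linarith
    have hz := zp' m
    have hy := zp m
    calc Real.exp (Real.log (1 + c) / d * m) *
          (Zs Q (2 * M * m) (8 * M) false true * Zs Q (2 * M * m) (8 * M) true false)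
        ≤ ((1 + c) ^ 2 * (1 + c) ^ K) *
          (Zs Q (2 * M * m) (8 * M) false true * Zs Q (2 * M * m) (8 * M) true false) :=
          mul_le_mul_of_nonneg_right hrate hz.le
      _ = (1 + c) ^ 2 * ((1 + c) ^ K *
          (Zs Q (2 * M * m) (8 * M) false true * Zs Q (2 * M * m) (8 * M) true false)) := by ring
      _ ≤ (1 + c) ^ 2 * (Q ^ (4 + 8 * (8 * M + 2).toNat) *
          (Zs Q (2 * M * m) (8 * M) false false * Zs Q (2 * M * m) (8 * M) true true)) :=
          mul_le_mul_of_nonneg_left h (pow_nonneg (by linarith) 2)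
      _ = C2 * (Zs Q (2 * M * m) (8 * M) false false * Zs Q (2 * M * m) (8 * M) true true) := by
          rw [hC2]; ring
      _ ≤ _ := mul_le_mul_of_nonneg_right (by linarith) hy.le

end Vale.Agent.P167.H452
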