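import Vale.Agent.P167.H452.Env
import Vale.Agent.P167.BR.Basic

/-!
# P167, general `q`, block Q-SRSW: loops which leave the strip through its lateral sides, loops of the
two rows
-/

namespace Vale.Agent.P167.H452

open Finset Vale.Agent.P167.FK Vale.Agent.P167.FKA
open Vale.Agent.P167.H259 (LN LN_congr)

variable {Q : ℝ} {η ω ω' : Cfg} {n H : ℤ} {X Y Z : Finset (ℤ × ℤ)}

/-- The two kinds of edges. -/
theorem edge_geo (e : Ed) : (∃ x y : ℤ, e = Sum.inl (x, y) ∧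
      ((hdv e = (x + 1, y) ∧ tlv e = (x, y)) ∨ (hdv e = (x, y) ∧ tlv e = (x + 1, y)))) ∨
    (∃ x y : ℤ, e = Sum.inr (x, y) ∧
      ((hdv e = (x, y + 1) ∧ tlv e = (x, y)) ∨ (hdv e = (x, y) ∧ tlv e = (x, y + 1))) ∧
      (ls e).2 = y + 1 ∧ (rs e).2 = y + 1) := by
  rcases e with ⟨x, y⟩ | ⟨x, y⟩
  · left
    refine ⟨x, y, rfl, ?_⟩
    by_cases h : Even (x + y) <;> simp [hdv, tlv, h]
  · right
    refine ⟨x, y, rfl, ?_⟩
    by_cases h : Even (x + y) <;> simp [hdv, tlv, ls, rs, h]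

/-- The lateral edges. -/
noncomputable def Lt (n H : ℤ) : Finset Ed :=
  (Finset.Icc (-1) H).image (fun y => (Sum.inl (-1, y) : Ed)) ∪
    (Finset.Icc (-1) H).image (fun y => (Sum.inl (n - 1, y) : Ed))

theorem mem_Lt {e : Ed} : e ∈ Lt n H ↔ ∃ y, -1 ≤ y ∧ y ≤ H ∧
    (e = Sum.inl (-1, y) ∨ e = Sum.inl (n - 1, y)) := by
  unfold Lt
  simp only [Finset.mem_union, Finset.mem_image, Finset.mem_Icc]
  constructor
  · rintro (⟨y, h1, rfl⟩ | ⟨y, h1, rfl⟩)
    · exact ⟨y, h1.1, h1.2, Or.inl rfl⟩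
    · exact ⟨y, h1.1, h1.2, Or.inr rfl⟩
  · rintro ⟨y, h1, h2, rfl | rfl⟩
    · exact Or.inl ⟨y, ⟨h1, h2⟩, rfl⟩
    · exact Or.inr ⟨y, ⟨h1, h2⟩, rfl⟩

theorem card_Lt (n H : ℤ) : (Lt n H).card ≤ 2 * (H + 2).toNat := by
  unfold Lt
  have h1 : (Finset.Icc (-1 : ℤ) H).card = (H + 2).toNat := by
    rw [Int.card_Icc]
    congr 1
    ring
  have h2 := Finset.card_image_le (s := Finset.Icc (-1 : ℤ) H) (f := fun y => (Sum.inl (-1, y) : Ed))
  have h3 := Finset.card_image_le (s := Finset.Icc (-1 : ℤ) H)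
    (f := fun y => (Sum.inl (n - 1, y) : Ed))
  have h4 := Finset.card_union_le ((Finset.Icc (-1 : ℤ) H).image (fun y => (Sum.inl (-1, y) : Ed)))
    ((Finset.Icc (-1 : ℤ) H).image (fun y => (Sum.inl (n - 1, y) : Ed)))
  omega

/-- The site which is kept at a square of state `a`. -/
def sgm (a : Bool) (e : Ed) : ℤ × ℤ := if a = true then rs e else ls e

theorem sgm_nx {a : Bool} {e : Ed} (h : ω (hdv e) = a) : sgm a (nx ω e) = sgm a e := by
  cases a
  · exact ls_nx h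
  · exact rs_nx h

theorem sgm_inr {a : Bool} {e : Ed} {y : ℤ} (h : (ls e).2 = y ∧ (rs e).2 = y) :
    (sgm a e).2 = y := by
  cases a
  · exact h.1
  · exact h.2

/-- The edges from which the interface goes back to the strip. -/
def Jn (n H : ℤ) (a b : Bool) (e : Ed) : Prop := hdv e ∈ St n H ∨
  (hdv e ∈ Bt n ∧ (sgm a e).2 = 0) ∨ (hdv e ∈ Tp n H ∧ (sgm b e).2 = H)

theorem Jn_step {a b : Bool} (hH : 1 ≤ H) (hb : ∀ v ∈ Bt n, ω v = a) (ht : ∀ v ∈ Tp n H, ω v = b)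
    {e : Ed} (h : Jn n H a b e) (hL : nx ω e ∉ Lt n H) : Jn n H a b (nx ω e) := by
  have htl := tlv_nx ω e
  have hs : ∀ {a : Bool}, ω (hdv e) = a → sgm a (nx ω e) = sgm a e := fun h => sgm_nx h
  generalize nx ω e = e' at htl hs hL ⊢
  rcases h with h | ⟨h, h0⟩ | ⟨h, h0⟩
  · rw [← htl] at h
    rw [mem_St] at h
    unfold Jn
    rw [mem_St, mem_Bt, mem_Tp]
    rcases edge_geo e' with ⟨x, y, h1, h2⟩ | ⟨x, y, h1, h2, h3⟩
    · rw [mem_Lt] at hL
      have hL' : ∀ z, -1 ≤ z → z ≤ H → ¬ (x = -1 ∧ y = z) ∧ ¬ (x = n - 1 ∧ y = z) := by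
        intro z z1 z2
        constructor
        · rintro ⟨rfl, rfl⟩
          exact hL ⟨y, z1, z2, Or.inl h1⟩
        · rintro ⟨rfl, rfl⟩
          exact hL ⟨y, z1, z2, Or.inr h1⟩
      left
      rcases h2 with ⟨h2, h3⟩ | ⟨h2, h3⟩
      · rw [h3] at h
        rw [h2]
        simp only at h ⊢
        have := hL' y (by omega) (by omega)
        omega
      · rw [h3] at h
        rw [h2]
        simp only at h ⊢
        have := hL' y (by omega) (by omega)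
        omega
    · have h4 := sgm_inr (a := a) h3
      have h5 := sgm_inr (a := b) h3
      rcases h2 with ⟨h2, h3⟩ | ⟨h2, h3⟩
      · rw [h3] at h
        rw [h2, h4, h5]
        simp only at h ⊢
        omega
      · rw [h3] at h
        rw [h2, h4, h5]
        simp only at h ⊢
        omega
  · have h6 := hs (hb _ h)
    rw [← htl] at h
    rw [← h6] at h0
    rw [mem_Bt] at h
    unfold Jn
    rw [mem_St, mem_Bt, mem_Tp]
    rcases edge_geo e' with ⟨x, y, h1, h2⟩ | ⟨x, y, h1, h2, h3⟩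
    · rw [mem_Lt] at hL
      have hL' : ∀ z, -1 ≤ z → z ≤ H → ¬ (x = -1 ∧ y = z) ∧ ¬ (x = n - 1 ∧ y = z) := by
        intro z z1 z2
        constructor
        · rintro ⟨rfl, rfl⟩
          exact hL ⟨y, z1, z2, Or.inl h1⟩
        · rintro ⟨rfl, rfl⟩
          exact hL ⟨y, z1, z2, Or.inr h1⟩
      right
      left
      refine ⟨?_, h0⟩
      rcases h2 with ⟨h2, h3⟩ | ⟨h2, h3⟩
      · rw [h3] at h
        rw [h2]
        simp only at h ⊢
        have := hL' y (by omega) (by omega)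
        omega
      · rw [h3] at h
        rw [h2]
        simp only at h ⊢
        have := hL' y (by omega) (by omega)
        omega
    · have h4 := sgm_inr (a := a) h3
      rw [h4] at h0
      left
      rcases h2 with ⟨h2, h3⟩ | ⟨h2, h3⟩
      · rw [h3] at h
        rw [h2]
        simp only at h ⊢
        omega
      · rw [h3] at h
        rw [h2]
        simp only at h ⊢
        omega
  · have h6 := hs (ht _ h)
    rw [← htl] at h
    rw [← h6] at h0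
    rw [mem_Tp] at h
    unfold Jn
    rw [mem_St, mem_Bt, mem_Tp]
    rcases edge_geo e' with ⟨x, y, h1, h2⟩ | ⟨x, y, h1, h2, h3⟩
    · rw [mem_Lt] at hL
      have hL' : ∀ z, -1 ≤ z → z ≤ H → ¬ (x = -1 ∧ y = z) ∧ ¬ (x = n - 1 ∧ y = z) := by
        intro z z1 z2
        constructor
        · rintro ⟨rfl, rfl⟩
          exact hL ⟨y, z1, z2, Or.inl h1⟩
        · rintro ⟨rfl, rfl⟩
          exact hL ⟨y, z1, z2, Or.inr h1⟩
      right
      right
      refine ⟨?_, h0⟩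
      rcases h2 with ⟨h2, h3⟩ | ⟨h2, h3⟩
      · rw [h3] at h
        rw [h2]
        simp only at h ⊢
        have := hL' y (by omega) (by omega)
        omega
      · rw [h3] at h
        rw [h2]
        simp only at h ⊢
        have := hL' y (by omega) (by omega)
        omega
    · have h4 := sgm_inr (a := b) h3
      rw [h4] at h0
      left
      rcases h2 with ⟨h2, h3⟩ | ⟨h2, h3⟩
      · rw [h3] at h
        rw [h2]
        simp only at h ⊢
        omega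
      · rw [h3] at h
        rw [h2]
        simp only at h ⊢
        omega

theorem Jn_mem {a b : Bool} {e : Ed} (h : Jn n H a b e) :
    hdv e ∈ St n H ∨ hdv e ∈ Bt n ∨ hdv e ∈ Tp n H := by
  rcases h with h | ⟨h, _⟩ | ⟨h, _⟩
  · exact Or.inl h
  · exact Or.inr (Or.inl h)
  · exact Or.inr (Or.inr h)

/-- The loops through the edges of a finite set. -/
theorem ncard_loops_le (ω : Cfg) (L : Finset Ed) :
    Set.ncard {ℓ | IsLoop ω ℓ ∧ ∃ e ∈ ℓ, e ∈ L} ≤ L.card ∧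
      {ℓ | IsLoop ω ℓ ∧ ∃ e ∈ ℓ, e ∈ L}.Finite := by
  classical
  set f : Finset Ed → Ed := fun ℓ => if h : ∃ e ∈ ℓ, e ∈ L then h.choose else Sum.inl (0, 0) with hf
  have hf1 : ∀ ℓ ∈ {ℓ | IsLoop ω ℓ ∧ ∃ e ∈ ℓ, e ∈ L}, f ℓ ∈ ℓ ∧ f ℓ ∈ L := by
    rintro ℓ ⟨_, h2⟩
    rw [hf]
    simp only
    rw [dif_pos h2]
    exact h2.choose_spec
  have hinj : Set.InjOn f {ℓ | IsLoop ω ℓ ∧ ∃ e ∈ ℓ, e ∈ L} := by
    intro ℓ h1 ℓ' h2 h3
    have e1 := (hf1 ℓ h1).1
    have e2 := (hf1 ℓ' h2).1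
    rw [← h3] at e2
    exact Vale.Agent.P167.IsLoop.eq_of_mem h1.1 h2.1 e1 e2
  have hmaps : Set.MapsTo f {ℓ | IsLoop ω ℓ ∧ ∃ e ∈ ℓ, e ∈ L} (L : Set Ed) :=
    fun ℓ h => (hf1 ℓ h).2
  constructor
  · rw [← Set.ncard_coe_finset L]
    exact Set.ncard_le_ncard_of_injOn f hmaps hinj (Finset.finite_toSet L)
  · exact Set.Finite.of_finite_image ((Finset.finite_toSet L).subset hmaps.image_subset) hinj

/-- **The number of the loops of the strip depends only on the strip and the two rows, up to the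
lateral sides.** -/
theorem LD_le (hH : 1 ≤ H) {a b : Bool} (hb : ∀ v ∈ Bt n, ω v = a) (ht : ∀ v ∈ Tp n H, ω v = b)
    (hag : ∀ v, v ∈ St n H ∨ v ∈ Bt n ∨ v ∈ Tp n H → ω v = ω' v) :
    LD (St n H) ω ≤ LD (St n H) ω' + 2 * (H + 2).toNat := by
  have hsub : {ℓ | IsLoop ω ℓ ∧ ∃ v ∈ vs ℓ, v ∈ St n H} ⊆
      {ℓ | IsLoop ω' ℓ ∧ ∃ v ∈ vs ℓ, v ∈ St n H} ∪ {ℓ | IsLoop ω ℓ ∧ ∃ e ∈ ℓ, e ∈ Lt n H} := by
    rintro ℓ ⟨h1, v, h2, h3⟩
    by_cases hL : ∃ e ∈ ℓ, e ∈ Lt n H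
    · exact Or.inr ⟨h1, hL⟩
    · push Not at hL
      left
      obtain ⟨e0, he0, rfl⟩ := Finset.mem_image.1 h2
      have hJ : ∀ e ∈ ℓ, Jn n H a b e := by
        intro e he
        refine h1.induct (p := Jn n H a b) (fun e' he' hp => Jn_step hH hb ht hp
          (hL _ (h1.nx_mem he'))) he0 he (Or.inl h3)
      refine ⟨s_loc ω ω' ℓ h1 fun v hv => ?_, _, h2, h3⟩
      obtain ⟨e, he, rfl⟩ := Finset.mem_image.1 hv
      exact hag _ (Jn_mem (hJ e he))
  have hf1 : {ℓ | IsLoop ω' ℓ ∧ ∃ v ∈ vs ℓ, v ∈ St n H}.Finite := H45.LV_fin s_two _ _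
  obtain ⟨c1, c2⟩ := ncard_loops_le ω (Lt n H)
  have h5 := Set.ncard_le_ncard hsub (hf1.union c2)
  have h6 := Set.ncard_union_le {ℓ | IsLoop ω' ℓ ∧ ∃ v ∈ vs ℓ, v ∈ St n H}
    {ℓ | IsLoop ω ℓ ∧ ∃ e ∈ ℓ, e ∈ Lt n H}
  have h7 := card_Lt n H
  unfold LD
  omega

end Vale.Agent.P167.H452
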