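import Vale.Agent.P167.H452.Sim

/-!
# P167, general `q`, block Q-SRSW: crossings of rectangles with wired or free horizontal sides
-/

namespace Vale.Agent.P167.H452

open Finset Vale.Agent.P167.FK Vale.Agent.P167.FKA Relation
open Vale.Agent.P153 Vale.Agent.P153.Topo
open Vale.Agent.P145.FB (PStep PConn hard easy)
open Vale.Agent.P167.H259 (PC_mono cf_mono cf_mono2 f_comp f_comp2 f_markov f_fkg flip_cf LN sum_inner
  Ex_out Zq_out cf_congr)

variable {Q : ℝ} {D D' : Finset (ℤ × ℤ)} {η η' ω ω' : Cfg} {s w H : ℤ}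

/-- The rectangle of squares. -/
noncomputable def Rc (s w H : ℤ) : Finset (ℤ × ℤ) := Finset.Ico s (s + w) ×ˢ Finset.Ico 0 H

theorem mem_Rc {v : ℤ × ℤ} : v ∈ Rc s w H ↔ s ≤ v.1 ∧ v.1 < s + w ∧ 0 ≤ v.2 ∧ v.2 < H := by
  unfold Rc
  rw [Finset.mem_product, Finset.mem_Ico, Finset.mem_Ico]
  tauto

/-- The rows below and above the rectangle are open, everything else is closed. -/
def ho (s w H : ℤ) : Cfg := fun v => decide (s ≤ v.1 ∧ v.1 < s + w ∧ (v.2 = -1 ∨ v.2 = H))

/-- The rows below and above the rectangle are closed, everything else is open. -/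
def hc (s w H : ℤ) : Cfg := fun v => !decide (s ≤ v.1 ∧ v.1 < s + w ∧ (v.2 = -1 ∨ v.2 = H))

/-- The columns on the left and on the right of the rectangle are closed, everything else is open. -/
def kc2 (s w H : ℤ) : Cfg := fun v => !decide (0 ≤ v.2 ∧ v.2 < H ∧ (v.1 = s - 1 ∨ v.1 = s + w))

/-- Primal crossing from the bottom to the top. -/
def VC (s w H : ℤ) : Set Cfg := {ω | ∃ u v : ℤ × ℤ, Even (u.1 + u.2) ∧ u.2 = 0 ∧ v.2 = H ∧
  PConn (op ω) (Rect s (s + w) 0 H) u v}

/-- Primal crossing from the left to the right. -/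
def HC (s w H : ℤ) : Set Cfg := {ω | ∃ u v : ℤ × ℤ, Even (u.1 + u.2) ∧ u.1 = s ∧ v.1 = s + w ∧
  PConn (op ω) (Rect s (s + w) 0 H) u v}

/-- Dual crossing from the left to the right. -/
def HD (s w H : ℤ) : Set Cfg := {ω | ∃ u v : ℤ × ℤ, Odd (u.1 + u.2) ∧ u.1 = s ∧ v.1 = s + w ∧
  PConn (op ω)ᶜ (Rect s (s + w) 0 H) u v}

/-! ### goodness -/

theorem good_fin (B : Finset (ℤ × ℤ)) (h : ∀ v, v ∉ B → ω v = false) : Good ω := by
  have h1 := f_good.1 B eta0 (B.filter (fun v => ω v = true)) f_good.2.1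
  have e : cf B eta0 (B.filter (fun v => ω v = true)) = ω := by
    funext v
    unfold cf
    by_cases hv : v ∈ B
    · cases hw : ω v <;> simp [hv, hw]
    · rw [if_neg hv, h v hv]
      rfl
  rwa [e] at h1

theorem good_cofin (B : Finset (ℤ × ℤ)) (h : ∀ v, v ∉ B → ω v = true) : Good ω := by
  have h1 := f_good.1 B eta1 (B.filter (fun v => ω v = true)) f_good.2.2
  have e : cf B eta1 (B.filter (fun v => ω v = true)) = ω := by
    funext v
    unfold cf
    by_cases hv : v ∈ B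
    · cases hw : ω v <;> simp [hv, hw]
    · rw [if_neg hv, h v hv]
      rfl
  rwa [e] at h1

theorem good_ho (s w H : ℤ) : Good (ho s w H) := by
  refine good_fin (Finset.Ico s (s + w) ×ˢ {-1, H}) fun v hv => ?_
  unfold ho
  rw [decide_eq_false_iff_not]
  intro h
  apply hv
  rw [Finset.mem_product, Finset.mem_Ico, Finset.mem_insert, Finset.mem_singleton]
  exact ⟨⟨h.1, h.2.1⟩, h.2.2⟩

theorem good_hc (s w H : ℤ) : Good (hc s w H) := by
  refine good_cofin (Finset.Ico s (s + w) ×ˢ {-1, H}) fun v hv => ?_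
  unfold hc
  rw [Bool.not_eq_true', decide_eq_false_iff_not]
  intro h
  apply hv
  rw [Finset.mem_product, Finset.mem_Ico, Finset.mem_insert, Finset.mem_singleton]
  exact ⟨⟨h.1, h.2.1⟩, h.2.2⟩

theorem good_kc2 (s w H : ℤ) : Good (kc2 s w H) := by
  refine good_cofin ({s - 1, s + w} ×ˢ Finset.Ico 0 H) fun v hv => ?_
  unfold kc2
  rw [Bool.not_eq_true', decide_eq_false_iff_not]
  intro h
  apply hv
  rw [Finset.mem_product, Finset.mem_Ico, Finset.mem_insert, Finset.mem_singleton]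
  exact ⟨h.2.2, h.1, h.2.1⟩

/-! ### the events -/

theorem inc_pconn {R : Set (ℤ × ℤ)} {u v : ℤ × ℤ} (h : ∀ x, ω x = true → ω' x = true)
    (h1 : PConn (op ω) R u v) : PConn (op ω') R u v :=
  h1.mono (fun x hx => h x hx) le_rfl

theorem inc_VC (s w H : ℤ) : IncS (VC s w H) := by
  rintro ω ω' h ⟨u, v, h1, h2, h3, h4⟩
  exact ⟨u, v, h1, h2, h3, inc_pconn h h4⟩

theorem inc_HC (s w H : ℤ) : IncS (HC s w H) := by
  rintro ω ω' h ⟨u, v, h1, h2, h3, h4⟩
  exact ⟨u, v, h1, h2, h3, inc_pconn h h4⟩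

/-- A step inside the rectangle of sites uses a square of the rectangle. -/
theorem pconn_rect {F F' : Set (ℤ × ℤ)} {u v : ℤ × ℤ}
    (h : ∀ x ∈ Rc s w H, x ∈ F → x ∈ F') (h1 : PConn F (Rect s (s + w) 0 H) u v) :
    PConn F' (Rect s (s + w) 0 H) u v := by
  obtain ⟨h0, h1⟩ := h1
  refine ⟨h0, ?_⟩
  have key : ReflTransGen (fun x y => PStep F' x y ∧ y ∈ Rect s (s + w) 0 H) u v ∧
      v ∈ Rect s (s + w) 0 H := by
    induction h1 with
    | refl => exact ⟨ReflTransGen.refl, h0⟩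
    | @tail x y _ h2 ih =>
      refine ⟨ih.1.tail ⟨⟨h2.1.1, h2.1.2.1, h _ ?_ h2.1.2.2⟩, h2.2⟩, h2.2⟩
      have h3 := mem_rect.1 ih.2
      have h4 := mem_rect.1 h2.2
      have h5 := h2.1.1
      have h6 := h2.1.2.1
      rw [mem_Rc]
      simp only
      omega
  exact key.1

theorem loc_ind {A : Finset (ℤ × ℤ)} {E : Set Cfg}
    (h : ∀ ω ω' : Cfg, (∀ v ∈ A, ω v = ω' v) → ω ∈ E → ω' ∈ E) : Loc A (E.indicator 1) := by
  intro ω ω' h1
  by_cases h2 : ω ∈ E
  · rw [Set.indicator_of_mem h2, Set.indicator_of_mem (h ω ω' h1 h2)]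
    rfl
  · rw [Set.indicator_of_notMem h2, Set.indicator_of_notMem
      fun h3 => h2 (h ω' ω (fun v hv => (h1 v hv).symm) h3)]

theorem loc_VC (s w H : ℤ) : Loc (Rc s w H) ((VC s w H).indicator 1) := by
  refine loc_ind ?_
  rintro ω ω' h ⟨u, v, h1, h2, h3, h4⟩
  exact ⟨u, v, h1, h2, h3, pconn_rect (fun x hx hF => by
    show ω' x = true
    rw [← h x hx]
    exact hF) h4⟩

theorem loc_HC (s w H : ℤ) : Loc (Rc s w H) ((HC s w H).indicator 1) := by
  refine loc_ind ?_
  rintro ω ω' h ⟨u, v, h1, h2, h3, h4⟩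
  exact ⟨u, v, h1, h2, h3, pconn_rect (fun x hx hF => by
    show ω' x = true
    rw [← h x hx]
    exact hF) h4⟩

theorem swap_rect (a b c d : ℤ) : Prod.swap ⁻¹' (Rect a b c d) = Rect c d a b := by
  ext z
  rw [Set.mem_preimage, mem_rect, mem_rect]
  simp only [Prod.fst_swap, Prod.snd_swap]
  tauto

/-- **Duality**: no primal vertical crossing, then a dual horizontal crossing. -/
theorem vc_or_hd (hw : 0 ≤ w) (hH : 0 ≤ H) (ω : Cfg) : ω ∈ VC s w H ∨ ω ∈ HD s w H := by
  rcases hard (Prod.swap ⁻¹' (op ω)) (a := 0) (b := H) (c := s) (d := s + w) hH (by omega)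
    with ⟨u, v, h1, h2, h3, h4⟩ | ⟨u, v, h1, h2, h3, h4⟩
  · left
    have h5 := h4.swap
    rw [swap_rect] at h5
    refine ⟨u.swap, v.swap, ?_, h1, h2, h5⟩
    rw [Int.even_iff]
    simp only [Prod.fst_swap, Prod.snd_swap]
    omega
  · right
    have h5 := h4.swap
    rw [swap_rect] at h5
    refine ⟨u.swap, v.swap, ?_, h1, h2, h5⟩
    rw [Int.odd_iff]
    simp only [Prod.fst_swap, Prod.snd_swap]
    omega

/-- A primal vertical crossing excludes a dual horizontal crossing. -/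
theorem vc_hd (hv : ω ∈ VC s w H) (hd : ω ∈ HD s w H) : False := by
  obtain ⟨u, v, h1, h2, h3, h4⟩ := hv
  obtain ⟨u', v', h1', h2', h3', h4'⟩ := hd
  have h5 := h4.swap
  have h5' := h4'.swap
  rw [swap_rect] at h5 h5'
  rw [Int.even_iff] at h1
  rw [Int.odd_iff] at h1'
  refine easy h5 (y := u'.swap) (y' := v'.swap) (by simpa using h2) (by simpa using h3) ?_ h5' ?_
    (Or.inl (by simpa using h2')) (Or.inl (by simpa using h3'))
  · simp only [Prod.fst_swap, Prod.snd_swap]
    omega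
  · simp only [Prod.fst_swap, Prod.snd_swap]
    omega

/-! ### duality of the measures -/

theorem Rc_sh (s w H : ℤ) : (Rc s w H).image FKA.sh = Rc (s + 1) w H := by
  ext v
  rw [Finset.mem_image]
  constructor
  · rintro ⟨a, ha, rfl⟩
    rw [mem_Rc] at ha ⊢
    simp only [FKA.sh]
    omega
  · intro hv
    refine ⟨FKA.shi v, ?_, sh_shi v⟩
    rw [mem_Rc] at hv ⊢
    simp only [FKA.shi]
    omega

theorem du_hd (ω : Cfg) : du ω ∈ HC (s + 1) w H ↔ ω ∈ HD s w H := by
  constructor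
  · rintro ⟨u, v, h1, h2, h3, h4⟩
    refine ⟨FKA.shi u, FKA.shi v, ?_, by simp only [FKA.shi]; omega, by simp only [FKA.shi]; omega,
      pconn_shi (fun x hx => op_du' hx) (fun x hx => ?_) h4⟩
    · rw [Int.odd_iff]
      rw [Int.even_iff] at h1
      simp only [FKA.shi]
      omega
    · rw [mem_rect] at hx ⊢
      simp only [FKA.shi]
      omega
  · rintro ⟨u, v, h1, h2, h3, h4⟩
    refine ⟨FKA.sh u, FKA.sh v, ?_, by simp only [FKA.sh]; omega, by simp only [FKA.sh]; omega,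
      pconn_sh (fun x hx => op_du hx) (fun x hx => ?_) h4⟩
    · rw [Int.even_iff]
      rw [Int.odd_iff] at h1
      simp only [FKA.sh]
      omega
    · rw [mem_rect] at hx ⊢
      simp only [FKA.sh]
      omega

theorem du_ho (s w H : ℤ) : du (ho s w H) = hc (s + 1) w H := by
  funext v
  unfold du ho hc
  congr 1
  apply decide_eq_decide.2
  simp only
  omega

/-- The horizontal crossings of a strip with free sides are dual to the vertical crossings of a strip
with wired sides. -/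
theorem pr_hc (hQ : 0 < Q) (s w H : ℤ) : Pr Q (Rc (s + 1) w H) (hc (s + 1) w H) (HC (s + 1) w H) =
    Pr Q (Rc s w H) (ho s w H) (HD s w H) := by
  have h := pr_dual hQ (D := Rc s w H) (good_ho s w H) (HC (s + 1) w H)
  rw [Rc_sh, du_ho] at h
  rw [h]
  congr 1
  ext ω
  exact du_hd ω

theorem pr_vc_hd (hQ : 0 < Q) (hw : 0 ≤ w) (hH : 0 ≤ H) :
    Pr Q D η (VC s w H) + Pr Q D η (HD s w H) = 1 := by
  have e : HD s w H = (VC s w H)ᶜ := by
    ext ω
    constructor
    · exact fun h h' => vc_hd h' h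
    · intro h
      exact (vc_or_hd hw hH ω).resolve_left h
  rw [e, Pr_compl hQ]
  ring

/-! ### squares -/

/-- Reflection in the diagonal of the square. -/
def rfl2 (s : ℤ) (v : ℤ × ℤ) : ℤ × ℤ := (v.2 + s, v.1 - s)

theorem sy_rfl2 (s : ℤ) : IsSy (rfl2 s) := by
  have h := (sy_tr (s, -s) (by simp)).comp sy_sw
  exact h

theorem rfl2_image (s H : ℤ) : (Rc s H H).image (rfl2 s) = Rc s H H := by
  ext v
  rw [Finset.mem_image]
  constructor
  · rintro ⟨a, ha, rfl⟩
    rw [mem_Rc] at ha ⊢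
    simp only [rfl2]
    omega
  · intro hv
    refine ⟨rfl2 s v, ?_, ?_⟩
    · rw [mem_Rc] at hv ⊢
      simp only [rfl2]
      omega
    · simp [rfl2]

theorem hc_rfl2 (s H : ℤ) : hc s H H ∘ rfl2 s = kc2 s H H := by
  funext v
  unfold kc2
  simp only [Function.comp, hc, rfl2]
  congr 1
  apply decide_eq_decide.2
  omega

theorem vc_rfl2 (s H : ℤ) (ω : Cfg) : ω ∘ rfl2 s ∈ VC s H H ↔ ω ∈ HC s H H := by
  have key : ∀ ω : Cfg, ∀ u v : ℤ × ℤ, PConn (op ω) (Rect s (s + H) 0 H) u v →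
      PConn (op (ω ∘ rfl2 s)) (Rect s (s + H) 0 H) (rfl2 s u) (rfl2 s v) := by
    rintro ω u v ⟨h0, h1⟩
    refine ⟨?_, ?_⟩
    · rw [mem_rect] at h0 ⊢
      simp only [rfl2]
      omega
    · induction h1 with
      | refl => exact ReflTransGen.refl
      | @tail x y _ h2 ih =>
        refine ih.tail ⟨⟨?_, ?_, ?_⟩, ?_⟩
        · have := h2.1.2.1
          simp only [rfl2]
          omega
        · have := h2.1.1
          simp only [rfl2]
          omega
        · show (ω ∘ rfl2 s) _ = true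
          have h3 : ω (min x.1 y.1, min x.2 y.2) = true := h2.1.2.2
          have e : rfl2 s (min (rfl2 s x).1 (rfl2 s y).1, min (rfl2 s x).2 (rfl2 s y).2) =
              (min x.1 y.1, min x.2 y.2) := by
            simp only [rfl2, Prod.mk.injEq]
            omega
          rw [Function.comp_apply, e]
          exact h3
        · have := mem_rect.1 h2.2
          rw [mem_rect]
          simp only [rfl2]
          omega
  have inv : ∀ v, rfl2 s (rfl2 s v) = v := fun v => by simp [rfl2]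
  constructor
  · rintro ⟨u, v, h1, h2, h3, h4⟩
    have h5 := key _ u v h4
    have e : (ω ∘ rfl2 s) ∘ rfl2 s = ω := by
      funext x
      simp only [Function.comp, inv]
    rw [e] at h5
    refine ⟨rfl2 s u, rfl2 s v, ?_, ?_, ?_, h5⟩
    · rw [Int.even_iff] at h1 ⊢
      simp only [rfl2]
      omega
    · simp only [rfl2]
      omega
    · simp only [rfl2]
      omega
  · rintro ⟨u, v, h1, h2, h3, h4⟩
    have h5 := key _ u v h4
    refine ⟨rfl2 s u, rfl2 s v, ?_, ?_, ?_, h5⟩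
    · rw [Int.even_iff] at h1 ⊢
      simp only [rfl2]
      omega
    · simp only [rfl2]
      omega
    · simp only [rfl2]
      omega

theorem pr_rfl (hQ : 0 < Q) (s H : ℤ) :
    Pr Q (Rc s H H) (hc s H H) (HC s H H) = Pr Q (Rc s H H) (kc2 s H H) (VC s H H) := by
  have h := (sy_rfl2 s).2 Q (Rc s H H) (hc s H H) ((VC s H H).indicator 1) hQ (good_hc s H H)
  rw [rfl2_image, hc_rfl2] at h
  unfold Pr
  rw [h]
  congr 1
  funext ω
  by_cases hω : ω ∈ HC s H H
  · rw [Set.indicator_of_mem hω, Set.indicator_of_mem ((vc_rfl2 s H ω).2 hω)]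
    rfl
  · rw [Set.indicator_of_notMem hω, Set.indicator_of_notMem fun h => hω ((vc_rfl2 s H ω).1 h)]

end Vale.Agent.P167.H452
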