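import Vale.Agent.P167.H452.Sqr

/-!
# P167, general `q`, block Q-SRSW: squares with wired horizontal sides are crossed with probability
at least `1 / (1 + q)`
-/

namespace Vale.Agent.P167.H452

open Finset Vale.Agent.P167.FK Vale.Agent.P167.FKA Relation
open Vale.Agent.P153 Vale.Agent.P153.Topo
open Vale.Agent.P145.FB (PStep PConn hard easy)
open Vale.Agent.P167.H259 (PC_mono cf_mono cf_mono2 f_comp f_comp2 f_markov f_fkg flip_cf LN sum_inner
  Ex_out Zq_out cf_congr)

variable {Q : ℝ} {D D' : Finset (ℤ × ℤ)} {η η' ω ω' : Cfg} {s w H : ℤ}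

/-- The rows, extended by three squares to the left, and the column which joins them, without the
square `(s - 3, 0)`. -/
def hn (s w H : ℤ) : Cfg := fun v => decide ((s - 3 ≤ v.1 ∧ v.1 < s + w ∧ (v.2 = -1 ∨ v.2 = H)) ∨
  (v.1 = s - 3 ∧ 0 < v.2 ∧ v.2 < H))

theorem good_hn (s w H : ℤ) : Good (hn s w H) := by
  refine good_fin (Finset.Ico (s - 3) (s + w) ×ˢ Finset.Icc (-1) (max H 0) ∪
    {s - 3} ×ˢ Finset.Icc (-1) H ∪ Finset.Ico (s - 3) (s + w) ×ˢ {H}) fun v hv => ?_
  unfold hn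
  rw [decide_eq_false_iff_not]
  intro h
  apply hv
  simp only [Finset.mem_union, Finset.mem_product, Finset.mem_Ico, Finset.mem_Icc,
    Finset.mem_singleton]
  omega

theorem good_upd (hη : Good η) (u : ℤ × ℤ) (b : Bool) : Good (Function.update η u b) := by
  have h := f_good.1 {u} η (if b = true then {u} else ∅) hη
  have e : cf {u} η (if b = true then {u} else ∅) = Function.update η u b := by
    funext v
    by_cases hv : v = u
    · subst hv
      cases b <;> simp [cf]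
    · rw [Function.update_of_ne hv]
      simp [cf, hv]
  rwa [e] at h

/-- The corners of the squares of the rectangle. -/
theorem pab_rect {a : ℤ × ℤ} (ha : a ∈ Rc s w H) : pa a ∈ Rect s (s + w) 0 H ∧
    pb a ∈ Rect s (s + w) 0 H := by
  rw [mem_Rc] at ha
  have h1 := (cor_pa a).1
  have h2 := (cor_pb a).1
  unfold Cor at h1 h2
  rw [mem_rect, mem_rect]
  omega

open Classical in
/-- Step (c1). -/
theorem c_one (hQ : 1 ≤ Q) (hw : 1 ≤ w) (hH : 1 ≤ H) :
    Pr Q (Rc s w H) (kc2 s w H) (VC s w H) ≤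
      Pr Q (Rc s w H) (Function.update (hn s w H) (s - 3, 0) true) (VC s w H) := by
  set η' := Function.update (hn s w H) (s - 3, 0) true with hη'
  have v1 : ∀ x, s - 3 ≤ x → x < s + w → cf (Rc s w H) η' ∅ (x, -1) = true := by
    intro x h1 h2
    rw [cf_out (by rw [mem_Rc]; simp only; omega), hη', Function.update_of_ne (by
      intro h; simp only [Prod.mk.injEq] at h; omega)]
    unfold hn
    rw [decide_eq_true_eq]
    exact Or.inl ⟨h1, h2, Or.inl rfl⟩
  have v2 : ∀ x, s - 3 ≤ x → x < s + w → cf (Rc s w H) η' ∅ (x, H) = true := by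
    intro x h1 h2
    rw [cf_out (by rw [mem_Rc]; simp only; omega), hη', Function.update_of_ne (by
      intro h; simp only [Prod.mk.injEq] at h; omega)]
    unfold hn
    rw [decide_eq_true_eq]
    exact Or.inl ⟨h1, h2, Or.inr rfl⟩
  have v3 : ∀ y, -1 ≤ y → y < H + 1 → cf (Rc s w H) η' ∅ (s - 3, y) = true := by
    intro y h1 h2
    rw [cf_out (by rw [mem_Rc]; simp only; omega), hη']
    by_cases h0 : y = 0
    · subst h0
      rw [Function.update_self]
    · rw [Function.update_of_ne (by intro h; simp only [Prod.mk.injEq] at h; omega)]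
      unfold hn
      rw [decide_eq_true_eq]
      rcases (show y = -1 ∨ y = H ∨ (0 < y ∧ y < H) by omega) with h | h | h
      · exact Or.inl ⟨le_rfl, by simp only; omega, Or.inl h⟩
      · exact Or.inl ⟨le_rfl, by simp only; omega, Or.inr h⟩
      · exact Or.inr ⟨rfl, h⟩
  set b0 := pa (s - 3, -1) with hb0
  have eb0 := cor_pa (s - 3, -1)
  have r1 : ∀ z : ℤ × ℤ, Even (z.1 + z.2) → s - 3 ≤ z.1 → z.1 ≤ s + w → z.2 = 0 →
      PC (cf (Rc s w H) η' ∅) z b0 := by
    intro z hz h1 h2 h3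
    refine row_cor v1 hz eb0.2 ?_ ⟨s - 3, le_rfl, by omega, eb0.1⟩
    rcases lt_or_ge z.1 (s + w) with h4 | h4
    · exact ⟨z.1, h1, h4, Or.inl rfl, Or.inr (by simp only; omega)⟩
    · exact ⟨z.1 - 1, by omega, by omega, Or.inr (by simp only; omega), Or.inr (by simp only; omega)⟩
  have t0 : PC (cf (Rc s w H) η' ∅) (pa (s - 3, H)) b0 :=
    pc_symm (col_cn v3 (by omega) (by omega) (by omega))
  have r2 : ∀ z : ℤ × ℤ, Even (z.1 + z.2) → s - 3 ≤ z.1 → z.1 ≤ s + w → z.2 = H →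
      PC (cf (Rc s w H) η' ∅) z b0 := by
    intro z hz h1 h2 h3
    refine pc_trans (row_cor v2 hz (cor_pa (s - 3, H)).2 ?_
      ⟨s - 3, le_rfl, by omega, (cor_pa (s - 3, H)).1⟩) t0
    rcases lt_or_ge z.1 (s + w) with h4 | h4
    · exact ⟨z.1, h1, h4, Or.inl rfl, Or.inl (by simp only; omega)⟩
    · exact ⟨z.1 - 1, by omega, by omega, Or.inr (by simp only; omega), Or.inl (by simp only; omega)⟩
  refine comp_sim (φ := fun z => if z ∈ Rect s (s + w) 0 H then z else b0) hQ (good_kc2 s w H)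
    (good_upd (good_hn s w H) _ _) (fun a ha => ?_) (fun v hv hvo => ?_) (inc_VC s w H).incF
    (loc_VC s w H)
  · obtain ⟨h1, h2⟩ := pab_rect ha
    exact ⟨if_pos h1, if_pos h2⟩
  · have key : ∀ z : ℤ × ℤ, Even (z.1 + z.2) → Cor v z →
        PC (cf (Rc s w H) η' ∅) (if z ∈ Rect s (s + w) 0 H then z else b0) b0 := by
      intro z hz hc
      by_cases hzR : z ∈ Rect s (s + w) 0 H
      · rw [if_pos hzR]
        rw [mem_rect] at hzR
        rw [mem_Rc] at hv
        simp only [kc2, Bool.not_eq_true', decide_eq_false_iff_not] at hvo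
        unfold Cor at hc
        have h5 : z.2 = 0 ∨ z.2 = H := by omega
        rcases h5 with h5 | h5
        · exact r1 z hz (by omega) (by omega) h5
        · exact r2 z hz (by omega) (by omega) h5
      · rw [if_neg hzR]
        exact pc_refl _
    exact pc_trans (key _ (cor_pa v).2 (cor_pa v).1) (pc_symm (key _ (cor_pb v).2 (cor_pb v).1))

open Classical in
/-- Step (c3). -/
theorem c_three (hQ : 1 ≤ Q) (hw : 1 ≤ w) (hH : 1 ≤ H) :
    Pr Q (Rc s w H) (Function.update (hn s w H) (s - 3, 0) false) (VC s w H) ≤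
      Pr Q (Rc s w H) (ho s w H) (VC s w H) := by
  have v1 : ∀ x, s ≤ x → x < s + w → cf (Rc s w H) (ho s w H) ∅ (x, -1) = true := by
    intro x h1 h2
    rw [cf_out (by rw [mem_Rc]; simp only; omega)]
    unfold ho
    rw [decide_eq_true_eq]
    exact ⟨h1, h2, Or.inl rfl⟩
  have v2 : ∀ x, s ≤ x → x < s + w → cf (Rc s w H) (ho s w H) ∅ (x, H) = true := by
    intro x h1 h2
    rw [cf_out (by rw [mem_Rc]; simp only; omega)]
    unfold ho
    rw [decide_eq_true_eq]
    exact ⟨h1, h2, Or.inr rfl⟩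
  set b1 := pa (s, -1) with hb1
  set t1 := pa (s, H) with ht1
  have eb1 := cor_pa (s, -1)
  have et1 := cor_pa (s, H)
  have r1 : ∀ z : ℤ × ℤ, Even (z.1 + z.2) → s ≤ z.1 → z.1 ≤ s + w → z.2 = 0 →
      PC (cf (Rc s w H) (ho s w H) ∅) z b1 := by
    intro z hz h1 h2 h3
    refine row_cor v1 hz eb1.2 ?_ ⟨s, le_rfl, by omega, eb1.1⟩
    rcases lt_or_ge z.1 (s + w) with h4 | h4
    · exact ⟨z.1, h1, h4, Or.inl rfl, Or.inr (by simp only; omega)⟩
    · exact ⟨z.1 - 1, by omega, by omega, Or.inr (by simp only; omega), Or.inr (by simp only; omega)⟩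
  have r2 : ∀ z : ℤ × ℤ, Even (z.1 + z.2) → s ≤ z.1 → z.1 ≤ s + w → z.2 = H →
      PC (cf (Rc s w H) (ho s w H) ∅) z t1 := by
    intro z hz h1 h2 h3
    refine row_cor v2 hz et1.2 ?_ ⟨s, le_rfl, by omega, et1.1⟩
    rcases lt_or_ge z.1 (s + w) with h4 | h4
    · exact ⟨z.1, h1, h4, Or.inl rfl, Or.inl (by simp only; omega)⟩
    · exact ⟨z.1 - 1, by omega, by omega, Or.inr (by simp only; omega), Or.inl (by simp only; omega)⟩
  refine comp_sim (φ := fun z => if z ∈ Rect s (s + w) 0 H then z else if z.2 ≤ 0 then b1 else t1)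
    hQ (good_upd (good_hn s w H) _ _) (good_ho s w H)
    (fun a ha => ?_) (fun v hv hvo => ?_) (inc_VC s w H).incF (loc_VC s w H)
  · obtain ⟨h1, h2⟩ := pab_rect ha
    exact ⟨if_pos h1, if_pos h2⟩
  · have hne : v ≠ (s - 3, 0) := by
      intro h
      rw [h, Function.update_self] at hvo
      exact absurd hvo (by decide)
    rw [Function.update_of_ne hne] at hvo
    simp only [hn, decide_eq_true_eq] at hvo
    have hne' : ¬ (v.1 = s - 3 ∧ v.2 = 0) := fun h => hne (Prod.ext h.1 h.2)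
    have key : ∀ z : ℤ × ℤ, Even (z.1 + z.2) → Cor v z →
        PC (cf (Rc s w H) (ho s w H) ∅)
          (if z ∈ Rect s (s + w) 0 H then z else if z.2 ≤ 0 then b1 else t1)
          (if v.2 = -1 then b1 else t1) := by
      intro z hz hc
      unfold Cor at hc
      by_cases hzR : z ∈ Rect s (s + w) 0 H
      · rw [if_pos hzR]
        rw [mem_rect] at hzR
        rcases hvo with ⟨h1, h2, h3 | h3⟩ | ⟨h1, h2, h3⟩
        · rw [if_pos h3]
          exact r1 z hz (by omega) (by omega) (by omega)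
        · rw [if_neg (by omega)]
          exact r2 z hz (by omega) (by omega) (by omega)
        · omega
      · rw [if_neg hzR]
        rcases hvo with ⟨h1, h2, h3 | h3⟩ | ⟨h1, h2, h3⟩
        · rw [if_pos h3, if_pos (by omega)]
          exact pc_refl _
        · rw [if_neg (show ¬ v.2 = -1 by omega), if_neg (by omega)]
          exact pc_refl _
        · rw [if_neg (show ¬ v.2 = -1 by omega), if_neg (by omega)]
          exact pc_refl _
    exact pc_trans (key _ (cor_pa v).2 (cor_pa v).1) (pc_symm (key _ (cor_pb v).2 (cor_pb v).1))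

/-- Step (c). -/
theorem vc_le (hQ : 1 ≤ Q) (hw : 1 ≤ w) (hH : 1 ≤ H) :
    Pr Q (Rc s w H) (kc2 s w H) (VC s w H) ≤ Q ^ 2 * Pr Q (Rc s w H) (ho s w H) (VC s w H) := by
  have h2 := ex_flip_le (D := Rc s w H) (η := hn s w H) hQ (good_hn s w H) (u := (s - 3, 0))
    (by rw [mem_Rc]; simp only; omega) (F := (VC s w H).indicator 1) (ind_nonneg _) (loc_VC s w H)
  have hQ2 : (0 : ℝ) ≤ Q ^ 2 := by positivity
  exact (c_one hQ hw hH).trans (h2.trans (mul_le_mul_of_nonneg_left (c_three hQ hw hH) hQ2))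

theorem sq_sum (hQ : 1 ≤ Q) (s : ℤ) (hH : 1 ≤ H) :
    1 ≤ Pr Q (Rc s H H) (ho s H H) (VC s H H) +
      Q ^ 2 * Pr Q (Rc (s + 1) H H) (ho (s + 1) H H) (VC (s + 1) H H) := by
  have hQ0 : 0 < Q := by linarith
  have h1 := pr_vc_hd (D := Rc s H H) (η := ho s H H) (s := s) (w := H) (H := H) hQ0 (by omega)
    (by omega)
  rw [← pr_hc hQ0, pr_rfl hQ0] at h1
  have h2 := vc_le (s := s + 1) (w := H) (H := H) hQ hH hH
  linarith

/-- A lower bound in an inner domain. -/
theorem le_inner (hQ : 1 ≤ Q) (hη : Good η) (hη' : Good η') (hD : D ⊆ D') {F : Cfg → ℝ}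
    (hF : IncF F) (h : ∀ v, η v = true → v ∉ D' ∧ η' v = true) : Ex Q D η F ≤ Ex Q D' η' F := by
  have hQ0 : 0 < Q := by linarith
  rw [f_markov Q D D' η' F hQ0 hD hη', ← Ex_const (Q := Q) (D := D') (η := η') hQ0 (Ex Q D η F)]
  refine Ex_mono hQ0 fun S _ => ?_
  refine f_comp Q D η _ F hQ hη (f_good.1 _ _ _ hη') (fun v hv => ?_) hF
  obtain ⟨h1, h2⟩ := h v hv
  rw [cf_out h1]
  exact h2

theorem vc_wide (hQ : 1 ≤ Q) {s' w' : ℤ} (h1 : s ≤ s') (h2 : s' + w' ≤ s + w) :
    Pr Q (Rc s' w' H) (ho s' w' H) (VC s' w' H) ≤ Pr Q (Rc s w H) (ho s w H) (VC s w H) := by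
  have hQ0 : 0 < Q := by linarith
  have e1 : Pr Q (Rc s' w' H) (ho s' w' H) (VC s' w' H) ≤
      Pr Q (Rc s w H) (ho s w H) (VC s' w' H) := by
    refine le_inner hQ (good_ho _ _ _) (good_ho _ _ _) (fun v hv => ?_) (inc_VC _ _ _).incF
      fun v hv => ?_
    · rw [mem_Rc] at hv ⊢
      omega
    · simp only [ho, decide_eq_true_eq] at hv ⊢
      rw [mem_Rc]
      refine ⟨fun h => ?_, by omega⟩
      omega
  refine e1.trans (Pr_mono hQ0 ?_)
  rintro ω ⟨u, v, a1, a2, a3, a4⟩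
  refine ⟨u, v, a1, a2, a3, a4.mono le_rfl fun z hz => ?_⟩
  rw [mem_rect] at hz ⊢
  omega

/-- **Vertical crossings with wired horizontal sides.** -/
theorem vc_ge (hQ : 1 ≤ Q) (hH : 1 ≤ H) (hw : H + 1 ≤ w) (s : ℤ) :
    1 / (1 + Q ^ 2) ≤ Pr Q (Rc s w H) (ho s w H) (VC s w H) := by
  have h0 := sq_sum (H := H) hQ s hH
  have h1 := vc_wide (H := H) (s := s) (w := w) (s' := s) (w' := H) hQ le_rfl (by omega)
  have h2 := vc_wide (H := H) (s := s) (w := w) (s' := s + 1) (w' := H) hQ (by omega) (by omega)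
  have hQ2 : (0 : ℝ) < 1 + Q ^ 2 := by positivity
  have hQ3 : (0 : ℝ) ≤ Q ^ 2 := by positivity
  rw [div_le_iff₀ hQ2]
  nlinarith [mul_le_mul_of_nonneg_left h2 hQ3]

/-- **Horizontal crossings with free horizontal sides.** -/
theorem hc_le (hQ : 1 ≤ Q) (hH : 1 ≤ H) (hw : H + 1 ≤ w) (s : ℤ) :
    Pr Q (Rc s w H) (hc s w H) (HC s w H) ≤ 1 - 1 / (1 + Q ^ 2) := by
  have hQ0 : 0 < Q := by linarith
  have h1 := pr_hc hQ0 (s - 1) w H
  have e : s - 1 + 1 = s := by ring
  rw [e] at h1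
  rw [h1]
  have h2 := pr_vc_hd (D := Rc (s - 1) w H) (η := ho (s - 1) w H) (s := s - 1) (w := w) (H := H) hQ0
    (by omega) (by omega)
  have h3 := vc_ge hQ hH hw (s - 1)
  linarith

/-- The same for every configuration outside with closed rows. -/
theorem hc_le' (hQ : 1 ≤ Q) (hH : 1 ≤ H) (hw : H + 1 ≤ w) (hη : Good η)
    (hrow : ∀ x, s ≤ x → x < s + w → η (x, -1) = false ∧ η (x, H) = false) :
    Pr Q (Rc s w H) η (HC s w H) ≤ 1 - 1 / (1 + Q ^ 2) := by
  refine le_trans ?_ (hc_le hQ hH hw s)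
  refine f_comp Q _ _ _ _ hQ hη (good_hc s w H) (fun v hv => ?_) (inc_HC s w H).incF
  unfold hc
  rw [Bool.not_eq_true', decide_eq_false_iff_not]
  rintro ⟨h1, h2, h3⟩
  obtain ⟨h4, h5⟩ := hrow v.1 h1 h2
  rcases h3 with h3 | h3
  · rw [← h3] at h4
    rw [h4] at hv
    exact absurd hv (by decide)
  · rw [← h3] at h5
    rw [h5] at hv
    exact absurd hv (by decide)

end Vale.Agent.P167.H452
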