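import Vale.Agent.P167.H452.FkgM
import Vale.Agent.P167.H718.Rp7
import Vale.Agent.P167.H437Q.SMom


/-!
# P167, general `q`, block Q-SRSW: touching of a free flat side at every scale, `1 < q < 4`
-/

namespace Vale.Agent.P167.H452

open Vale.Agent.P167.FK

/-- **Touching of a free flat side.** -/
theorem touch_all {θ : ℝ} (h0 : 0 < θ) (h1 : θ < Real.pi / 3) (hR : RSW (2 * Real.cos θ)) :
    TOUCH (2 * Real.cos θ) := by
  have hQ : 1 < 2 * Real.cos θ := by
    have h := Real.cos_lt_cos_of_nonneg_of_le_pi_div_two h0.le (by linarith [Real.pi_pos]) h1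
    rw [Real.cos_pi_div_three] at h
    linarith
  exact touch_of h0 h1.le (H718.s_rp h0 h1.le) (s_fkg hQ) (H437Q.s_mom hQ.le hR)

end Vale.Agent.P167.H452
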